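import Vale.Agent.Lib.P183.Check

namespace Vale.Agent.Lib.P183

theorem chkD0_0_ok : chkD 0 0 = true := by decide +kernel
theorem chkA0_0_ok : chkA 0 0 = true := by decide +kernel
theorem chkD0_1_ok : chkD 0 1 = true := by decide +kernel
theorem chkA0_1_ok : chkA 0 1 = true := by decide +kernel
theorem chkD0_2_ok : chkD 0 2 = true := by decide +kernel
theorem chkA0_2_ok : chkA 0 2 = true := by decide +kernel
theorem chkD0_3_ok : chkD 0 3 = true := by decide +kernel
theorem chkA0_3_ok : chkA 0 3 = true := by decide +kernel
theorem chkD0_4_ok : chkD 0 4 = true := by decide +kernel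
theorem chkA0_4_ok : chkA 0 4 = true := by decide +kernel
theorem chkD0_5_ok : chkD 0 5 = true := by decide +kernel
theorem chkA0_5_ok : chkA 0 5 = true := by decide +kernel
theorem chkD0_6_ok : chkD 0 6 = true := by decide +kernel
theorem chkA0_6_ok : chkA 0 6 = true := by decide +kernel
theorem chkD0_7_ok : chkD 0 7 = true := by decide +kernel
theorem chkA0_7_ok : chkA 0 7 = true := by decide +kernel
theorem chkD0_8_ok : chkD 0 8 = true := by decide +kernel
theorem chkA0_8_ok : chkA 0 8 = true := by decide +kernel
theorem chkD0_9_ok : chkD 0 9 = true := by decide +kernel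
theorem chkA0_9_ok : chkA 0 9 = true := by decide +kernel
theorem chkD0_10_ok : chkD 0 10 = true := by decide +kernel
theorem chkA0_10_ok : chkA 0 10 = true := by decide +kernel
theorem chkD0_11_ok : chkD 0 11 = true := by decide +kernel
theorem chkA0_11_ok : chkA 0 11 = true := by decide +kernel
theorem chkD0_12_ok : chkD 0 12 = true := by decide +kernel
theorem chkA0_12_ok : chkA 0 12 = true := by decide +kernel
theorem chkD0_13_ok : chkD 0 13 = true := by decide +kernel
theorem chkA0_13_ok : chkA 0 13 = true := by decide +kernel
theorem chkD0_14_ok : chkD 0 14 = true := by decide +kernel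
theorem chkA0_14_ok : chkA 0 14 = true := by decide +kernel
theorem chkD0_15_ok : chkD 0 15 = true := by decide +kernel
theorem chkA0_15_ok : chkA 0 15 = true := by decide +kernel
theorem chkD0_16_ok : chkD 0 16 = true := by decide +kernel
theorem chkA0_16_ok : chkA 0 16 = true := by decide +kernel
theorem chkD0_17_ok : chkD 0 17 = true := by decide +kernel
theorem chkA0_17_ok : chkA 0 17 = true := by decide +kernel
theorem chkD0_18_ok : chkD 0 18 = true := by decide +kernel
theorem chkA0_18_ok : chkA 0 18 = true := by decide +kernel
theorem chkD0_19_ok : chkD 0 19 = true := by decide +kernel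
theorem chkA0_19_ok : chkA 0 19 = true := by decide +kernel
theorem chkD0_20_ok : chkD 0 20 = true := by decide +kernel
theorem chkA0_20_ok : chkA 0 20 = true := by decide +kernel
theorem chkD0_21_ok : chkD 0 21 = true := by decide +kernel
theorem chkA0_21_ok : chkA 0 21 = true := by decide +kernel
theorem chkD0_22_ok : chkD 0 22 = true := by decide +kernel
theorem chkA0_22_ok : chkA 0 22 = true := by decide +kernel
theorem chkD0_23_ok : chkD 0 23 = true := by decide +kernel
theorem chkA0_23_ok : chkA 0 23 = true := by decide +kernel
theorem chkD0_24_ok : chkD 0 24 = true := by decide +kernel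
theorem chkA0_24_ok : chkA 0 24 = true := by decide +kernel
theorem chkD0_25_ok : chkD 0 25 = true := by decide +kernel
theorem chkA0_25_ok : chkA 0 25 = true := by decide +kernel
theorem chkD0_26_ok : chkD 0 26 = true := by decide +kernel
theorem chkA0_26_ok : chkA 0 26 = true := by decide +kernel
theorem chkD0_27_ok : chkD 0 27 = true := by decide +kernel
theorem chkA0_27_ok : chkA 0 27 = true := by decide +kernel
theorem chkD0_28_ok : chkD 0 28 = true := by decide +kernel
theorem chkA0_28_ok : chkA 0 28 = true := by decide +kernel
theorem chkD0_29_ok : chkD 0 29 = true := by decide +kernel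
theorem chkA0_29_ok : chkA 0 29 = true := by decide +kernel
theorem chkD0_30_ok : chkD 0 30 = true := by decide +kernel
theorem chkA0_30_ok : chkA 0 30 = true := by decide +kernel
theorem chkD0_31_ok : chkD 0 31 = true := by decide +kernel
theorem chkA0_31_ok : chkA 0 31 = true := by decide +kernel
theorem chkD0_32_ok : chkD 0 32 = true := by decide +kernel
theorem chkA0_32_ok : chkA 0 32 = true := by decide +kernel
theorem chkD0_33_ok : chkD 0 33 = true := by decide +kernel
theorem chkA0_33_ok : chkA 0 33 = true := by decide +kernel
theorem chkD0_34_ok : chkD 0 34 = true := by decide +kernel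
theorem chkA0_34_ok : chkA 0 34 = true := by decide +kernel
theorem chkD0_35_ok : chkD 0 35 = true := by decide +kernel
theorem chkA0_35_ok : chkA 0 35 = true := by decide +kernel

end Vale.Agent.Lib.P183
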