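import Vale.Agent.Lib.P183.Check

namespace Vale.Agent.Lib.P183

theorem chkD1_0_ok : chkD 1 0 = true := by decide +kernel
theorem chkA1_0_ok : chkA 1 0 = true := by decide +kernel
theorem chkD1_1_ok : chkD 1 1 = true := by decide +kernel
theorem chkA1_1_ok : chkA 1 1 = true := by decide +kernel
theorem chkD1_2_ok : chkD 1 2 = true := by decide +kernel
theorem chkA1_2_ok : chkA 1 2 = true := by decide +kernel
theorem chkD1_3_ok : chkD 1 3 = true := by decide +kernel
theorem chkA1_3_ok : chkA 1 3 = true := by decide +kernel
theorem chkD1_4_ok : chkD 1 4 = true := by decide +kernel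
theorem chkA1_4_ok : chkA 1 4 = true := by decide +kernel
theorem chkD1_5_ok : chkD 1 5 = true := by decide +kernel
theorem chkA1_5_ok : chkA 1 5 = true := by decide +kernel
theorem chkD1_6_ok : chkD 1 6 = true := by decide +kernel
theorem chkA1_6_ok : chkA 1 6 = true := by decide +kernel
theorem chkD1_7_ok : chkD 1 7 = true := by decide +kernel
theorem chkA1_7_ok : chkA 1 7 = true := by decide +kernel
theorem chkD1_8_ok : chkD 1 8 = true := by decide +kernel
theorem chkA1_8_ok : chkA 1 8 = true := by decide +kernel
theorem chkD1_9_ok : chkD 1 9 = true := by decide +kernel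
theorem chkA1_9_ok : chkA 1 9 = true := by decide +kernel
theorem chkD1_10_ok : chkD 1 10 = true := by decide +kernel
theorem chkA1_10_ok : chkA 1 10 = true := by decide +kernel
theorem chkD1_11_ok : chkD 1 11 = true := by decide +kernel
theorem chkA1_11_ok : chkA 1 11 = true := by decide +kernel
theorem chkD1_12_ok : chkD 1 12 = true := by decide +kernel
theorem chkA1_12_ok : chkA 1 12 = true := by decide +kernel
theorem chkD1_13_ok : chkD 1 13 = true := by decide +kernel
theorem chkA1_13_ok : chkA 1 13 = true := by decide +kernel
theorem chkD1_14_ok : chkD 1 14 = true := by decide +kernel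
theorem chkA1_14_ok : chkA 1 14 = true := by decide +kernel
theorem chkD1_15_ok : chkD 1 15 = true := by decide +kernel
theorem chkA1_15_ok : chkA 1 15 = true := by decide +kernel
theorem chkD1_16_ok : chkD 1 16 = true := by decide +kernel
theorem chkA1_16_ok : chkA 1 16 = true := by decide +kernel
theorem chkD1_17_ok : chkD 1 17 = true := by decide +kernel
theorem chkA1_17_ok : chkA 1 17 = true := by decide +kernel
theorem chkD1_18_ok : chkD 1 18 = true := by decide +kernel
theorem chkA1_18_ok : chkA 1 18 = true := by decide +kernel
theorem chkD1_19_ok : chkD 1 19 = true := by decide +kernel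
theorem chkA1_19_ok : chkA 1 19 = true := by decide +kernel
theorem chkD1_20_ok : chkD 1 20 = true := by decide +kernel
theorem chkA1_20_ok : chkA 1 20 = true := by decide +kernel
theorem chkD1_21_ok : chkD 1 21 = true := by decide +kernel
theorem chkA1_21_ok : chkA 1 21 = true := by decide +kernel
theorem chkD1_22_ok : chkD 1 22 = true := by decide +kernel
theorem chkA1_22_ok : chkA 1 22 = true := by decide +kernel
theorem chkD1_23_ok : chkD 1 23 = true := by decide +kernel
theorem chkA1_23_ok : chkA 1 23 = true := by decide +kernel
theorem chkD1_24_ok : chkD 1 24 = true := by decide +kernel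
theorem chkA1_24_ok : chkA 1 24 = true := by decide +kernel
theorem chkD1_25_ok : chkD 1 25 = true := by decide +kernel
theorem chkA1_25_ok : chkA 1 25 = true := by decide +kernel
theorem chkD1_26_ok : chkD 1 26 = true := by decide +kernel
theorem chkA1_26_ok : chkA 1 26 = true := by decide +kernel
theorem chkD1_27_ok : chkD 1 27 = true := by decide +kernel
theorem chkA1_27_ok : chkA 1 27 = true := by decide +kernel
theorem chkD1_28_ok : chkD 1 28 = true := by decide +kernel
theorem chkA1_28_ok : chkA 1 28 = true := by decide +kernel
theorem chkD1_29_ok : chkD 1 29 = true := by decide +kernel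
theorem chkA1_29_ok : chkA 1 29 = true := by decide +kernel
theorem chkD1_30_ok : chkD 1 30 = true := by decide +kernel
theorem chkA1_30_ok : chkA 1 30 = true := by decide +kernel
theorem chkD1_31_ok : chkD 1 31 = true := by decide +kernel
theorem chkA1_31_ok : chkA 1 31 = true := by decide +kernel
theorem chkD1_32_ok : chkD 1 32 = true := by decide +kernel
theorem chkA1_32_ok : chkA 1 32 = true := by decide +kernel
theorem chkD1_33_ok : chkD 1 33 = true := by decide +kernel
theorem chkA1_33_ok : chkA 1 33 = true := by decide +kernel
theorem chkD1_34_ok : chkD 1 34 = true := by decide +kernel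
theorem chkA1_34_ok : chkA 1 34 = true := by decide +kernel
theorem chkD1_35_ok : chkD 1 35 = true := by decide +kernel
theorem chkA1_35_ok : chkA 1 35 = true := by decide +kernel

end Vale.Agent.Lib.P183
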