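import Vale.Agent.Lib.P183.Check
import Vale.Agent.Lib.P183.ChkOp0

namespace Vale.Agent.Lib.P183

theorem chkD2_0_ok : chkD 2 0 = true := by decide +kernel
theorem chkA2_0_ok : chkA 2 0 = true := by decide +kernel
theorem chkD2_1_ok : chkD 2 1 = true := by decide +kernel
theorem chkA2_1_ok : chkA 2 1 = true := by decide +kernel
theorem chkD2_2_ok : chkD 2 2 = true := by decide +kernel
theorem chkA2_2_ok : chkA 2 2 = true := by decide +kernel
theorem chkD2_3_ok : chkD 2 3 = true := by decide +kernel
theorem chkA2_3_ok : chkA 2 3 = true := by decide +kernel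
theorem chkD2_4_ok : chkD 2 4 = true := by decide +kernel
theorem chkA2_4_ok : chkA 2 4 = true := by decide +kernel
theorem chkD2_5_ok : chkD 2 5 = true := by decide +kernel
theorem chkA2_5_ok : chkA 2 5 = true := by decide +kernel
theorem chkD2_6_ok : chkD 2 6 = true := by decide +kernel
theorem chkA2_6_ok : chkA 2 6 = true := by decide +kernel
theorem chkD2_7_ok : chkD 2 7 = true := by decide +kernel
theorem chkA2_7_ok : chkA 2 7 = true := by decide +kernel
theorem chkD2_8_ok : chkD 2 8 = true := by decide +kernel
theorem chkA2_8_ok : chkA 2 8 = true := by decide +kernel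
theorem chkD2_9_ok : chkD 2 9 = true := by decide +kernel
theorem chkA2_9_ok : chkA 2 9 = true := by decide +kernel
theorem chkD2_10_ok : chkD 2 10 = true := by decide +kernel
theorem chkA2_10_ok : chkA 2 10 = true := by decide +kernel
theorem chkD2_11_ok : chkD 2 11 = true := by decide +kernel
theorem chkA2_11_ok : chkA 2 11 = true := by decide +kernel
theorem chkD2_12_ok : chkD 2 12 = true := by decide +kernel
theorem chkA2_12_ok : chkA 2 12 = true := by decide +kernel
theorem chkD2_13_ok : chkD 2 13 = true := by decide +kernel
theorem chkA2_13_ok : chkA 2 13 = true := by decide +kernel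
theorem chkD2_14_ok : chkD 2 14 = true := by decide +kernel
theorem chkA2_14_ok : chkA 2 14 = true := by decide +kernel
theorem chkD2_15_ok : chkD 2 15 = true := by decide +kernel
theorem chkA2_15_ok : chkA 2 15 = true := by decide +kernel
theorem chkD2_16_ok : chkD 2 16 = true := by decide +kernel
theorem chkA2_16_ok : chkA 2 16 = true := by decide +kernel
theorem chkD2_17_ok : chkD 2 17 = true := by decide +kernel
theorem chkA2_17_ok : chkA 2 17 = true := by decide +kernel
theorem chkD2_18_ok : chkD 2 18 = true := by decide +kernel
theorem chkA2_18_ok : chkA 2 18 = true := by decide +kernel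
theorem chkD2_19_ok : chkD 2 19 = true := by decide +kernel
theorem chkA2_19_ok : chkA 2 19 = true := by decide +kernel
theorem chkD2_20_ok : chkD 2 20 = true := by decide +kernel
theorem chkA2_20_ok : chkA 2 20 = true := by decide +kernel
theorem chkD2_21_ok : chkD 2 21 = true := by decide +kernel
theorem chkA2_21_ok : chkA 2 21 = true := by decide +kernel
theorem chkD2_22_ok : chkD 2 22 = true := by decide +kernel
theorem chkA2_22_ok : chkA 2 22 = true := by decide +kernel
theorem chkD2_23_ok : chkD 2 23 = true := by decide +kernel
theorem chkA2_23_ok : chkA 2 23 = true := by decide +kernel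
theorem chkD2_24_ok : chkD 2 24 = true := by decide +kernel
theorem chkA2_24_ok : chkA 2 24 = true := by decide +kernel
theorem chkD2_25_ok : chkD 2 25 = true := by decide +kernel
theorem chkA2_25_ok : chkA 2 25 = true := by decide +kernel
theorem chkD2_26_ok : chkD 2 26 = true := by decide +kernel
theorem chkA2_26_ok : chkA 2 26 = true := by decide +kernel
theorem chkD2_27_ok : chkD 2 27 = true := by decide +kernel
theorem chkA2_27_ok : chkA 2 27 = true := by decide +kernel
theorem chkD2_28_ok : chkD 2 28 = true := by decide +kernel
theorem chkA2_28_ok : chkA 2 28 = true := by decide +kernel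
theorem chkD2_29_ok : chkD 2 29 = true := by decide +kernel
theorem chkA2_29_ok : chkA 2 29 = true := by decide +kernel
theorem chkD2_30_ok : chkD 2 30 = true := by decide +kernel
theorem chkA2_30_ok : chkA 2 30 = true := by decide +kernel
theorem chkD2_31_ok : chkD 2 31 = true := by decide +kernel
theorem chkA2_31_ok : chkA 2 31 = true := by decide +kernel
theorem chkD2_32_ok : chkD 2 32 = true := by decide +kernel
theorem chkA2_32_ok : chkA 2 32 = true := by decide +kernel
theorem chkD2_33_ok : chkD 2 33 = true := by decide +kernel
theorem chkA2_33_ok : chkA 2 33 = true := by decide +kernel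
theorem chkD2_34_ok : chkD 2 34 = true := by decide +kernel
theorem chkA2_34_ok : chkA 2 34 = true := by decide +kernel
theorem chkD2_35_ok : chkD 2 35 = true := by decide +kernel
theorem chkA2_35_ok : chkA 2 35 = true := by decide +kernel

end Vale.Agent.Lib.P183
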