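import Vale.Agent.Lib.P183.Check
import Vale.Agent.Lib.P183.ChkOp1

namespace Vale.Agent.Lib.P183

theorem chkD3_0_ok : chkD 3 0 = true := by decide +kernel
theorem chkA3_0_ok : chkA 3 0 = true := by decide +kernel
theorem chkD3_1_ok : chkD 3 1 = true := by decide +kernel
theorem chkA3_1_ok : chkA 3 1 = true := by decide +kernel
theorem chkD3_2_ok : chkD 3 2 = true := by decide +kernel
theorem chkA3_2_ok : chkA 3 2 = true := by decide +kernel
theorem chkD3_3_ok : chkD 3 3 = true := by decide +kernel
theorem chkA3_3_ok : chkA 3 3 = true := by decide +kernel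
theorem chkD3_4_ok : chkD 3 4 = true := by decide +kernel
theorem chkA3_4_ok : chkA 3 4 = true := by decide +kernel
theorem chkD3_5_ok : chkD 3 5 = true := by decide +kernel
theorem chkA3_5_ok : chkA 3 5 = true := by decide +kernel
theorem chkD3_6_ok : chkD 3 6 = true := by decide +kernel
theorem chkA3_6_ok : chkA 3 6 = true := by decide +kernel
theorem chkD3_7_ok : chkD 3 7 = true := by decide +kernel
theorem chkA3_7_ok : chkA 3 7 = true := by decide +kernel
theorem chkD3_8_ok : chkD 3 8 = true := by decide +kernel
theorem chkA3_8_ok : chkA 3 8 = true := by decide +kernel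
theorem chkD3_9_ok : chkD 3 9 = true := by decide +kernel
theorem chkA3_9_ok : chkA 3 9 = true := by decide +kernel
theorem chkD3_10_ok : chkD 3 10 = true := by decide +kernel
theorem chkA3_10_ok : chkA 3 10 = true := by decide +kernel
theorem chkD3_11_ok : chkD 3 11 = true := by decide +kernel
theorem chkA3_11_ok : chkA 3 11 = true := by decide +kernel
theorem chkD3_12_ok : chkD 3 12 = true := by decide +kernel
theorem chkA3_12_ok : chkA 3 12 = true := by decide +kernel
theorem chkD3_13_ok : chkD 3 13 = true := by decide +kernel
theorem chkA3_13_ok : chkA 3 13 = true := by decide +kernel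
theorem chkD3_14_ok : chkD 3 14 = true := by decide +kernel
theorem chkA3_14_ok : chkA 3 14 = true := by decide +kernel
theorem chkD3_15_ok : chkD 3 15 = true := by decide +kernel
theorem chkA3_15_ok : chkA 3 15 = true := by decide +kernel
theorem chkD3_16_ok : chkD 3 16 = true := by decide +kernel
theorem chkA3_16_ok : chkA 3 16 = true := by decide +kernel
theorem chkD3_17_ok : chkD 3 17 = true := by decide +kernel
theorem chkA3_17_ok : chkA 3 17 = true := by decide +kernel
theorem chkD3_18_ok : chkD 3 18 = true := by decide +kernel
theorem chkA3_18_ok : chkA 3 18 = true := by decide +kernel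
theorem chkD3_19_ok : chkD 3 19 = true := by decide +kernel
theorem chkA3_19_ok : chkA 3 19 = true := by decide +kernel
theorem chkD3_20_ok : chkD 3 20 = true := by decide +kernel
theorem chkA3_20_ok : chkA 3 20 = true := by decide +kernel
theorem chkD3_21_ok : chkD 3 21 = true := by decide +kernel
theorem chkA3_21_ok : chkA 3 21 = true := by decide +kernel
theorem chkD3_22_ok : chkD 3 22 = true := by decide +kernel
theorem chkA3_22_ok : chkA 3 22 = true := by decide +kernel
theorem chkD3_23_ok : chkD 3 23 = true := by decide +kernel
theorem chkA3_23_ok : chkA 3 23 = true := by decide +kernel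
theorem chkD3_24_ok : chkD 3 24 = true := by decide +kernel
theorem chkA3_24_ok : chkA 3 24 = true := by decide +kernel
theorem chkD3_25_ok : chkD 3 25 = true := by decide +kernel
theorem chkA3_25_ok : chkA 3 25 = true := by decide +kernel
theorem chkD3_26_ok : chkD 3 26 = true := by decide +kernel
theorem chkA3_26_ok : chkA 3 26 = true := by decide +kernel
theorem chkD3_27_ok : chkD 3 27 = true := by decide +kernel
theorem chkA3_27_ok : chkA 3 27 = true := by decide +kernel
theorem chkD3_28_ok : chkD 3 28 = true := by decide +kernel
theorem chkA3_28_ok : chkA 3 28 = true := by decide +kernel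
theorem chkD3_29_ok : chkD 3 29 = true := by decide +kernel
theorem chkA3_29_ok : chkA 3 29 = true := by decide +kernel
theorem chkD3_30_ok : chkD 3 30 = true := by decide +kernel
theorem chkA3_30_ok : chkA 3 30 = true := by decide +kernel
theorem chkD3_31_ok : chkD 3 31 = true := by decide +kernel
theorem chkA3_31_ok : chkA 3 31 = true := by decide +kernel
theorem chkD3_32_ok : chkD 3 32 = true := by decide +kernel
theorem chkA3_32_ok : chkA 3 32 = true := by decide +kernel
theorem chkD3_33_ok : chkD 3 33 = true := by decide +kernel
theorem chkA3_33_ok : chkA 3 33 = true := by decide +kernel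
theorem chkD3_34_ok : chkD 3 34 = true := by decide +kernel
theorem chkA3_34_ok : chkA 3 34 = true := by decide +kernel
theorem chkD3_35_ok : chkD 3 35 = true := by decide +kernel
theorem chkA3_35_ok : chkA 3 35 = true := by decide +kernel

end Vale.Agent.Lib.P183
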