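import Vale.Agent.Lib.P183.Check
import Vale.Agent.Lib.P183.ChkOp2

namespace Vale.Agent.Lib.P183

theorem chkD4_0_ok : chkD 4 0 = true := by decide +kernel
theorem chkA4_0_ok : chkA 4 0 = true := by decide +kernel
theorem chkD4_1_ok : chkD 4 1 = true := by decide +kernel
theorem chkA4_1_ok : chkA 4 1 = true := by decide +kernel
theorem chkD4_2_ok : chkD 4 2 = true := by decide +kernel
theorem chkA4_2_ok : chkA 4 2 = true := by decide +kernel
theorem chkD4_3_ok : chkD 4 3 = true := by decide +kernel
theorem chkA4_3_ok : chkA 4 3 = true := by decide +kernel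
theorem chkD4_4_ok : chkD 4 4 = true := by decide +kernel
theorem chkA4_4_ok : chkA 4 4 = true := by decide +kernel
theorem chkD4_5_ok : chkD 4 5 = true := by decide +kernel
theorem chkA4_5_ok : chkA 4 5 = true := by decide +kernel
theorem chkD4_6_ok : chkD 4 6 = true := by decide +kernel
theorem chkA4_6_ok : chkA 4 6 = true := by decide +kernel
theorem chkD4_7_ok : chkD 4 7 = true := by decide +kernel
theorem chkA4_7_ok : chkA 4 7 = true := by decide +kernel
theorem chkD4_8_ok : chkD 4 8 = true := by decide +kernel
theorem chkA4_8_ok : chkA 4 8 = true := by decide +kernel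
theorem chkD4_9_ok : chkD 4 9 = true := by decide +kernel
theorem chkA4_9_ok : chkA 4 9 = true := by decide +kernel
theorem chkD4_10_ok : chkD 4 10 = true := by decide +kernel
theorem chkA4_10_ok : chkA 4 10 = true := by decide +kernel
theorem chkD4_11_ok : chkD 4 11 = true := by decide +kernel
theorem chkA4_11_ok : chkA 4 11 = true := by decide +kernel
theorem chkD4_12_ok : chkD 4 12 = true := by decide +kernel
theorem chkA4_12_ok : chkA 4 12 = true := by decide +kernel
theorem chkD4_13_ok : chkD 4 13 = true := by decide +kernel
theorem chkA4_13_ok : chkA 4 13 = true := by decide +kernel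
theorem chkD4_14_ok : chkD 4 14 = true := by decide +kernel
theorem chkA4_14_ok : chkA 4 14 = true := by decide +kernel
theorem chkD4_15_ok : chkD 4 15 = true := by decide +kernel
theorem chkA4_15_ok : chkA 4 15 = true := by decide +kernel
theorem chkD4_16_ok : chkD 4 16 = true := by decide +kernel
theorem chkA4_16_ok : chkA 4 16 = true := by decide +kernel
theorem chkD4_17_ok : chkD 4 17 = true := by decide +kernel
theorem chkA4_17_ok : chkA 4 17 = true := by decide +kernel
theorem chkD4_18_ok : chkD 4 18 = true := by decide +kernel
theorem chkA4_18_ok : chkA 4 18 = true := by decide +kernel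
theorem chkD4_19_ok : chkD 4 19 = true := by decide +kernel
theorem chkA4_19_ok : chkA 4 19 = true := by decide +kernel
theorem chkD4_20_ok : chkD 4 20 = true := by decide +kernel
theorem chkA4_20_ok : chkA 4 20 = true := by decide +kernel
theorem chkD4_21_ok : chkD 4 21 = true := by decide +kernel
theorem chkA4_21_ok : chkA 4 21 = true := by decide +kernel
theorem chkD4_22_ok : chkD 4 22 = true := by decide +kernel
theorem chkA4_22_ok : chkA 4 22 = true := by decide +kernel
theorem chkD4_23_ok : chkD 4 23 = true := by decide +kernel
theorem chkA4_23_ok : chkA 4 23 = true := by decide +kernel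
theorem chkD4_24_ok : chkD 4 24 = true := by decide +kernel
theorem chkA4_24_ok : chkA 4 24 = true := by decide +kernel
theorem chkD4_25_ok : chkD 4 25 = true := by decide +kernel
theorem chkA4_25_ok : chkA 4 25 = true := by decide +kernel
theorem chkD4_26_ok : chkD 4 26 = true := by decide +kernel
theorem chkA4_26_ok : chkA 4 26 = true := by decide +kernel
theorem chkD4_27_ok : chkD 4 27 = true := by decide +kernel
theorem chkA4_27_ok : chkA 4 27 = true := by decide +kernel
theorem chkD4_28_ok : chkD 4 28 = true := by decide +kernel
theorem chkA4_28_ok : chkA 4 28 = true := by decide +kernel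
theorem chkD4_29_ok : chkD 4 29 = true := by decide +kernel
theorem chkA4_29_ok : chkA 4 29 = true := by decide +kernel
theorem chkD4_30_ok : chkD 4 30 = true := by decide +kernel
theorem chkA4_30_ok : chkA 4 30 = true := by decide +kernel
theorem chkD4_31_ok : chkD 4 31 = true := by decide +kernel
theorem chkA4_31_ok : chkA 4 31 = true := by decide +kernel
theorem chkD4_32_ok : chkD 4 32 = true := by decide +kernel
theorem chkA4_32_ok : chkA 4 32 = true := by decide +kernel
theorem chkD4_33_ok : chkD 4 33 = true := by decide +kernel
theorem chkA4_33_ok : chkA 4 33 = true := by decide +kernel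
theorem chkD4_34_ok : chkD 4 34 = true := by decide +kernel
theorem chkA4_34_ok : chkA 4 34 = true := by decide +kernel
theorem chkD4_35_ok : chkD 4 35 = true := by decide +kernel
theorem chkA4_35_ok : chkA 4 35 = true := by decide +kernel

end Vale.Agent.Lib.P183
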