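import Vale.Agent.Lib.P183.Check
import Vale.Agent.Lib.P183.ChkOp3

namespace Vale.Agent.Lib.P183

theorem chkD5_0_ok : chkD 5 0 = true := by decide +kernel
theorem chkA5_0_ok : chkA 5 0 = true := by decide +kernel
theorem chkD5_1_ok : chkD 5 1 = true := by decide +kernel
theorem chkA5_1_ok : chkA 5 1 = true := by decide +kernel
theorem chkD5_2_ok : chkD 5 2 = true := by decide +kernel
theorem chkA5_2_ok : chkA 5 2 = true := by decide +kernel
theorem chkD5_3_ok : chkD 5 3 = true := by decide +kernel
theorem chkA5_3_ok : chkA 5 3 = true := by decide +kernel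
theorem chkD5_4_ok : chkD 5 4 = true := by decide +kernel
theorem chkA5_4_ok : chkA 5 4 = true := by decide +kernel
theorem chkD5_5_ok : chkD 5 5 = true := by decide +kernel
theorem chkA5_5_ok : chkA 5 5 = true := by decide +kernel
theorem chkD5_6_ok : chkD 5 6 = true := by decide +kernel
theorem chkA5_6_ok : chkA 5 6 = true := by decide +kernel
theorem chkD5_7_ok : chkD 5 7 = true := by decide +kernel
theorem chkA5_7_ok : chkA 5 7 = true := by decide +kernel
theorem chkD5_8_ok : chkD 5 8 = true := by decide +kernel
theorem chkA5_8_ok : chkA 5 8 = true := by decide +kernel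
theorem chkD5_9_ok : chkD 5 9 = true := by decide +kernel
theorem chkA5_9_ok : chkA 5 9 = true := by decide +kernel
theorem chkD5_10_ok : chkD 5 10 = true := by decide +kernel
theorem chkA5_10_ok : chkA 5 10 = true := by decide +kernel
theorem chkD5_11_ok : chkD 5 11 = true := by decide +kernel
theorem chkA5_11_ok : chkA 5 11 = true := by decide +kernel
theorem chkD5_12_ok : chkD 5 12 = true := by decide +kernel
theorem chkA5_12_ok : chkA 5 12 = true := by decide +kernel
theorem chkD5_13_ok : chkD 5 13 = true := by decide +kernel
theorem chkA5_13_ok : chkA 5 13 = true := by decide +kernel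
theorem chkD5_14_ok : chkD 5 14 = true := by decide +kernel
theorem chkA5_14_ok : chkA 5 14 = true := by decide +kernel
theorem chkD5_15_ok : chkD 5 15 = true := by decide +kernel
theorem chkA5_15_ok : chkA 5 15 = true := by decide +kernel
theorem chkD5_16_ok : chkD 5 16 = true := by decide +kernel
theorem chkA5_16_ok : chkA 5 16 = true := by decide +kernel
theorem chkD5_17_ok : chkD 5 17 = true := by decide +kernel
theorem chkA5_17_ok : chkA 5 17 = true := by decide +kernel
theorem chkD5_18_ok : chkD 5 18 = true := by decide +kernel
theorem chkA5_18_ok : chkA 5 18 = true := by decide +kernel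
theorem chkD5_19_ok : chkD 5 19 = true := by decide +kernel
theorem chkA5_19_ok : chkA 5 19 = true := by decide +kernel
theorem chkD5_20_ok : chkD 5 20 = true := by decide +kernel
theorem chkA5_20_ok : chkA 5 20 = true := by decide +kernel
theorem chkD5_21_ok : chkD 5 21 = true := by decide +kernel
theorem chkA5_21_ok : chkA 5 21 = true := by decide +kernel
theorem chkD5_22_ok : chkD 5 22 = true := by decide +kernel
theorem chkA5_22_ok : chkA 5 22 = true := by decide +kernel
theorem chkD5_23_ok : chkD 5 23 = true := by decide +kernel
theorem chkA5_23_ok : chkA 5 23 = true := by decide +kernel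
theorem chkD5_24_ok : chkD 5 24 = true := by decide +kernel
theorem chkA5_24_ok : chkA 5 24 = true := by decide +kernel
theorem chkD5_25_ok : chkD 5 25 = true := by decide +kernel
theorem chkA5_25_ok : chkA 5 25 = true := by decide +kernel
theorem chkD5_26_ok : chkD 5 26 = true := by decide +kernel
theorem chkA5_26_ok : chkA 5 26 = true := by decide +kernel
theorem chkD5_27_ok : chkD 5 27 = true := by decide +kernel
theorem chkA5_27_ok : chkA 5 27 = true := by decide +kernel
theorem chkD5_28_ok : chkD 5 28 = true := by decide +kernel
theorem chkA5_28_ok : chkA 5 28 = true := by decide +kernel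
theorem chkD5_29_ok : chkD 5 29 = true := by decide +kernel
theorem chkA5_29_ok : chkA 5 29 = true := by decide +kernel
theorem chkD5_30_ok : chkD 5 30 = true := by decide +kernel
theorem chkA5_30_ok : chkA 5 30 = true := by decide +kernel
theorem chkD5_31_ok : chkD 5 31 = true := by decide +kernel
theorem chkA5_31_ok : chkA 5 31 = true := by decide +kernel
theorem chkD5_32_ok : chkD 5 32 = true := by decide +kernel
theorem chkA5_32_ok : chkA 5 32 = true := by decide +kernel
theorem chkD5_33_ok : chkD 5 33 = true := by decide +kernel
theorem chkA5_33_ok : chkA 5 33 = true := by decide +kernel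
theorem chkD5_34_ok : chkD 5 34 = true := by decide +kernel
theorem chkA5_34_ok : chkA 5 34 = true := by decide +kernel
theorem chkD5_35_ok : chkD 5 35 = true := by decide +kernel
theorem chkA5_35_ok : chkA 5 35 = true := by decide +kernel

end Vale.Agent.Lib.P183
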