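import Vale.Agent.Lib.P183.Check
import Vale.Agent.Lib.P183.ChkOp4

namespace Vale.Agent.Lib.P183

theorem chkD6_0_ok : chkD 6 0 = true := by decide +kernel
theorem chkA6_0_ok : chkA 6 0 = true := by decide +kernel
theorem chkD6_1_ok : chkD 6 1 = true := by decide +kernel
theorem chkA6_1_ok : chkA 6 1 = true := by decide +kernel
theorem chkD6_2_ok : chkD 6 2 = true := by decide +kernel
theorem chkA6_2_ok : chkA 6 2 = true := by decide +kernel
theorem chkD6_3_ok : chkD 6 3 = true := by decide +kernel
theorem chkA6_3_ok : chkA 6 3 = true := by decide +kernel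
theorem chkD6_4_ok : chkD 6 4 = true := by decide +kernel
theorem chkA6_4_ok : chkA 6 4 = true := by decide +kernel
theorem chkD6_5_ok : chkD 6 5 = true := by decide +kernel
theorem chkA6_5_ok : chkA 6 5 = true := by decide +kernel
theorem chkD6_6_ok : chkD 6 6 = true := by decide +kernel
theorem chkA6_6_ok : chkA 6 6 = true := by decide +kernel
theorem chkD6_7_ok : chkD 6 7 = true := by decide +kernel
theorem chkA6_7_ok : chkA 6 7 = true := by decide +kernel
theorem chkD6_8_ok : chkD 6 8 = true := by decide +kernel
theorem chkA6_8_ok : chkA 6 8 = true := by decide +kernel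
theorem chkD6_9_ok : chkD 6 9 = true := by decide +kernel
theorem chkA6_9_ok : chkA 6 9 = true := by decide +kernel
theorem chkD6_10_ok : chkD 6 10 = true := by decide +kernel
theorem chkA6_10_ok : chkA 6 10 = true := by decide +kernel
theorem chkD6_11_ok : chkD 6 11 = true := by decide +kernel
theorem chkA6_11_ok : chkA 6 11 = true := by decide +kernel
theorem chkD6_12_ok : chkD 6 12 = true := by decide +kernel
theorem chkA6_12_ok : chkA 6 12 = true := by decide +kernel
theorem chkD6_13_ok : chkD 6 13 = true := by decide +kernel
theorem chkA6_13_ok : chkA 6 13 = true := by decide +kernel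
theorem chkD6_14_ok : chkD 6 14 = true := by decide +kernel
theorem chkA6_14_ok : chkA 6 14 = true := by decide +kernel
theorem chkD6_15_ok : chkD 6 15 = true := by decide +kernel
theorem chkA6_15_ok : chkA 6 15 = true := by decide +kernel
theorem chkD6_16_ok : chkD 6 16 = true := by decide +kernel
theorem chkA6_16_ok : chkA 6 16 = true := by decide +kernel
theorem chkD6_17_ok : chkD 6 17 = true := by decide +kernel
theorem chkA6_17_ok : chkA 6 17 = true := by decide +kernel
theorem chkD6_18_ok : chkD 6 18 = true := by decide +kernel
theorem chkA6_18_ok : chkA 6 18 = true := by decide +kernel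
theorem chkD6_19_ok : chkD 6 19 = true := by decide +kernel
theorem chkA6_19_ok : chkA 6 19 = true := by decide +kernel
theorem chkD6_20_ok : chkD 6 20 = true := by decide +kernel
theorem chkA6_20_ok : chkA 6 20 = true := by decide +kernel
theorem chkD6_21_ok : chkD 6 21 = true := by decide +kernel
theorem chkA6_21_ok : chkA 6 21 = true := by decide +kernel
theorem chkD6_22_ok : chkD 6 22 = true := by decide +kernel
theorem chkA6_22_ok : chkA 6 22 = true := by decide +kernel
theorem chkD6_23_ok : chkD 6 23 = true := by decide +kernel
theorem chkA6_23_ok : chkA 6 23 = true := by decide +kernel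
theorem chkD6_24_ok : chkD 6 24 = true := by decide +kernel
theorem chkA6_24_ok : chkA 6 24 = true := by decide +kernel
theorem chkD6_25_ok : chkD 6 25 = true := by decide +kernel
theorem chkA6_25_ok : chkA 6 25 = true := by decide +kernel
theorem chkD6_26_ok : chkD 6 26 = true := by decide +kernel
theorem chkA6_26_ok : chkA 6 26 = true := by decide +kernel
theorem chkD6_27_ok : chkD 6 27 = true := by decide +kernel
theorem chkA6_27_ok : chkA 6 27 = true := by decide +kernel
theorem chkD6_28_ok : chkD 6 28 = true := by decide +kernel
theorem chkA6_28_ok : chkA 6 28 = true := by decide +kernel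
theorem chkD6_29_ok : chkD 6 29 = true := by decide +kernel
theorem chkA6_29_ok : chkA 6 29 = true := by decide +kernel
theorem chkD6_30_ok : chkD 6 30 = true := by decide +kernel
theorem chkA6_30_ok : chkA 6 30 = true := by decide +kernel
theorem chkD6_31_ok : chkD 6 31 = true := by decide +kernel
theorem chkA6_31_ok : chkA 6 31 = true := by decide +kernel
theorem chkD6_32_ok : chkD 6 32 = true := by decide +kernel
theorem chkA6_32_ok : chkA 6 32 = true := by decide +kernel
theorem chkD6_33_ok : chkD 6 33 = true := by decide +kernel
theorem chkA6_33_ok : chkA 6 33 = true := by decide +kernel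
theorem chkD6_34_ok : chkD 6 34 = true := by decide +kernel
theorem chkA6_34_ok : chkA 6 34 = true := by decide +kernel
theorem chkD6_35_ok : chkD 6 35 = true := by decide +kernel
theorem chkA6_35_ok : chkA 6 35 = true := by decide +kernel

end Vale.Agent.Lib.P183
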