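import Vale.Agent.Lib.P183.Check
import Vale.Agent.Lib.P183.ChkOp5

namespace Vale.Agent.Lib.P183

theorem chkD7_0_ok : chkD 7 0 = true := by decide +kernel
theorem chkA7_0_ok : chkA 7 0 = true := by decide +kernel
theorem chkD7_1_ok : chkD 7 1 = true := by decide +kernel
theorem chkA7_1_ok : chkA 7 1 = true := by decide +kernel
theorem chkD7_2_ok : chkD 7 2 = true := by decide +kernel
theorem chkA7_2_ok : chkA 7 2 = true := by decide +kernel
theorem chkD7_3_ok : chkD 7 3 = true := by decide +kernel
theorem chkA7_3_ok : chkA 7 3 = true := by decide +kernel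
theorem chkD7_4_ok : chkD 7 4 = true := by decide +kernel
theorem chkA7_4_ok : chkA 7 4 = true := by decide +kernel
theorem chkD7_5_ok : chkD 7 5 = true := by decide +kernel
theorem chkA7_5_ok : chkA 7 5 = true := by decide +kernel
theorem chkD7_6_ok : chkD 7 6 = true := by decide +kernel
theorem chkA7_6_ok : chkA 7 6 = true := by decide +kernel
theorem chkD7_7_ok : chkD 7 7 = true := by decide +kernel
theorem chkA7_7_ok : chkA 7 7 = true := by decide +kernel
theorem chkD7_8_ok : chkD 7 8 = true := by decide +kernel
theorem chkA7_8_ok : chkA 7 8 = true := by decide +kernel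
theorem chkD7_9_ok : chkD 7 9 = true := by decide +kernel
theorem chkA7_9_ok : chkA 7 9 = true := by decide +kernel
theorem chkD7_10_ok : chkD 7 10 = true := by decide +kernel
theorem chkA7_10_ok : chkA 7 10 = true := by decide +kernel
theorem chkD7_11_ok : chkD 7 11 = true := by decide +kernel
theorem chkA7_11_ok : chkA 7 11 = true := by decide +kernel
theorem chkD7_12_ok : chkD 7 12 = true := by decide +kernel
theorem chkA7_12_ok : chkA 7 12 = true := by decide +kernel
theorem chkD7_13_ok : chkD 7 13 = true := by decide +kernel
theorem chkA7_13_ok : chkA 7 13 = true := by decide +kernel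
theorem chkD7_14_ok : chkD 7 14 = true := by decide +kernel
theorem chkA7_14_ok : chkA 7 14 = true := by decide +kernel
theorem chkD7_15_ok : chkD 7 15 = true := by decide +kernel
theorem chkA7_15_ok : chkA 7 15 = true := by decide +kernel
theorem chkD7_16_ok : chkD 7 16 = true := by decide +kernel
theorem chkA7_16_ok : chkA 7 16 = true := by decide +kernel
theorem chkD7_17_ok : chkD 7 17 = true := by decide +kernel
theorem chkA7_17_ok : chkA 7 17 = true := by decide +kernel
theorem chkD7_18_ok : chkD 7 18 = true := by decide +kernel
theorem chkA7_18_ok : chkA 7 18 = true := by decide +kernel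
theorem chkD7_19_ok : chkD 7 19 = true := by decide +kernel
theorem chkA7_19_ok : chkA 7 19 = true := by decide +kernel
theorem chkD7_20_ok : chkD 7 20 = true := by decide +kernel
theorem chkA7_20_ok : chkA 7 20 = true := by decide +kernel
theorem chkD7_21_ok : chkD 7 21 = true := by decide +kernel
theorem chkA7_21_ok : chkA 7 21 = true := by decide +kernel
theorem chkD7_22_ok : chkD 7 22 = true := by decide +kernel
theorem chkA7_22_ok : chkA 7 22 = true := by decide +kernel
theorem chkD7_23_ok : chkD 7 23 = true := by decide +kernel
theorem chkA7_23_ok : chkA 7 23 = true := by decide +kernel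
theorem chkD7_24_ok : chkD 7 24 = true := by decide +kernel
theorem chkA7_24_ok : chkA 7 24 = true := by decide +kernel
theorem chkD7_25_ok : chkD 7 25 = true := by decide +kernel
theorem chkA7_25_ok : chkA 7 25 = true := by decide +kernel
theorem chkD7_26_ok : chkD 7 26 = true := by decide +kernel
theorem chkA7_26_ok : chkA 7 26 = true := by decide +kernel
theorem chkD7_27_ok : chkD 7 27 = true := by decide +kernel
theorem chkA7_27_ok : chkA 7 27 = true := by decide +kernel
theorem chkD7_28_ok : chkD 7 28 = true := by decide +kernel
theorem chkA7_28_ok : chkA 7 28 = true := by decide +kernel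
theorem chkD7_29_ok : chkD 7 29 = true := by decide +kernel
theorem chkA7_29_ok : chkA 7 29 = true := by decide +kernel
theorem chkD7_30_ok : chkD 7 30 = true := by decide +kernel
theorem chkA7_30_ok : chkA 7 30 = true := by decide +kernel
theorem chkD7_31_ok : chkD 7 31 = true := by decide +kernel
theorem chkA7_31_ok : chkA 7 31 = true := by decide +kernel
theorem chkD7_32_ok : chkD 7 32 = true := by decide +kernel
theorem chkA7_32_ok : chkA 7 32 = true := by decide +kernel
theorem chkD7_33_ok : chkD 7 33 = true := by decide +kernel
theorem chkA7_33_ok : chkA 7 33 = true := by decide +kernel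
theorem chkD7_34_ok : chkD 7 34 = true := by decide +kernel
theorem chkA7_34_ok : chkA 7 34 = true := by decide +kernel
theorem chkD7_35_ok : chkD 7 35 = true := by decide +kernel
theorem chkA7_35_ok : chkA 7 35 = true := by decide +kernel

end Vale.Agent.Lib.P183
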