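import Vale.Agent.Lib.P183.Check
import Vale.Agent.Lib.P183.ChkOp6

namespace Vale.Agent.Lib.P183

theorem chkD8_0_ok : chkD 8 0 = true := by decide +kernel
theorem chkA8_0_ok : chkA 8 0 = true := by decide +kernel
theorem chkD8_1_ok : chkD 8 1 = true := by decide +kernel
theorem chkA8_1_ok : chkA 8 1 = true := by decide +kernel
theorem chkD8_2_ok : chkD 8 2 = true := by decide +kernel
theorem chkA8_2_ok : chkA 8 2 = true := by decide +kernel
theorem chkD8_3_ok : chkD 8 3 = true := by decide +kernel
theorem chkA8_3_ok : chkA 8 3 = true := by decide +kernel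
theorem chkD8_4_ok : chkD 8 4 = true := by decide +kernel
theorem chkA8_4_ok : chkA 8 4 = true := by decide +kernel
theorem chkD8_5_ok : chkD 8 5 = true := by decide +kernel
theorem chkA8_5_ok : chkA 8 5 = true := by decide +kernel
theorem chkD8_6_ok : chkD 8 6 = true := by decide +kernel
theorem chkA8_6_ok : chkA 8 6 = true := by decide +kernel
theorem chkD8_7_ok : chkD 8 7 = true := by decide +kernel
theorem chkA8_7_ok : chkA 8 7 = true := by decide +kernel
theorem chkD8_8_ok : chkD 8 8 = true := by decide +kernel
theorem chkA8_8_ok : chkA 8 8 = true := by decide +kernel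
theorem chkD8_9_ok : chkD 8 9 = true := by decide +kernel
theorem chkA8_9_ok : chkA 8 9 = true := by decide +kernel
theorem chkD8_10_ok : chkD 8 10 = true := by decide +kernel
theorem chkA8_10_ok : chkA 8 10 = true := by decide +kernel
theorem chkD8_11_ok : chkD 8 11 = true := by decide +kernel
theorem chkA8_11_ok : chkA 8 11 = true := by decide +kernel
theorem chkD8_12_ok : chkD 8 12 = true := by decide +kernel
theorem chkA8_12_ok : chkA 8 12 = true := by decide +kernel
theorem chkD8_13_ok : chkD 8 13 = true := by decide +kernel
theorem chkA8_13_ok : chkA 8 13 = true := by decide +kernel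
theorem chkD8_14_ok : chkD 8 14 = true := by decide +kernel
theorem chkA8_14_ok : chkA 8 14 = true := by decide +kernel
theorem chkD8_15_ok : chkD 8 15 = true := by decide +kernel
theorem chkA8_15_ok : chkA 8 15 = true := by decide +kernel
theorem chkD8_16_ok : chkD 8 16 = true := by decide +kernel
theorem chkA8_16_ok : chkA 8 16 = true := by decide +kernel
theorem chkD8_17_ok : chkD 8 17 = true := by decide +kernel
theorem chkA8_17_ok : chkA 8 17 = true := by decide +kernel
theorem chkD8_18_ok : chkD 8 18 = true := by decide +kernel
theorem chkA8_18_ok : chkA 8 18 = true := by decide +kernel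
theorem chkD8_19_ok : chkD 8 19 = true := by decide +kernel
theorem chkA8_19_ok : chkA 8 19 = true := by decide +kernel
theorem chkD8_20_ok : chkD 8 20 = true := by decide +kernel
theorem chkA8_20_ok : chkA 8 20 = true := by decide +kernel
theorem chkD8_21_ok : chkD 8 21 = true := by decide +kernel
theorem chkA8_21_ok : chkA 8 21 = true := by decide +kernel
theorem chkD8_22_ok : chkD 8 22 = true := by decide +kernel
theorem chkA8_22_ok : chkA 8 22 = true := by decide +kernel
theorem chkD8_23_ok : chkD 8 23 = true := by decide +kernel
theorem chkA8_23_ok : chkA 8 23 = true := by decide +kernel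
theorem chkD8_24_ok : chkD 8 24 = true := by decide +kernel
theorem chkA8_24_ok : chkA 8 24 = true := by decide +kernel
theorem chkD8_25_ok : chkD 8 25 = true := by decide +kernel
theorem chkA8_25_ok : chkA 8 25 = true := by decide +kernel
theorem chkD8_26_ok : chkD 8 26 = true := by decide +kernel
theorem chkA8_26_ok : chkA 8 26 = true := by decide +kernel
theorem chkD8_27_ok : chkD 8 27 = true := by decide +kernel
theorem chkA8_27_ok : chkA 8 27 = true := by decide +kernel
theorem chkD8_28_ok : chkD 8 28 = true := by decide +kernel
theorem chkA8_28_ok : chkA 8 28 = true := by decide +kernel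
theorem chkD8_29_ok : chkD 8 29 = true := by decide +kernel
theorem chkA8_29_ok : chkA 8 29 = true := by decide +kernel
theorem chkD8_30_ok : chkD 8 30 = true := by decide +kernel
theorem chkA8_30_ok : chkA 8 30 = true := by decide +kernel
theorem chkD8_31_ok : chkD 8 31 = true := by decide +kernel
theorem chkA8_31_ok : chkA 8 31 = true := by decide +kernel
theorem chkD8_32_ok : chkD 8 32 = true := by decide +kernel
theorem chkA8_32_ok : chkA 8 32 = true := by decide +kernel
theorem chkD8_33_ok : chkD 8 33 = true := by decide +kernel
theorem chkA8_33_ok : chkA 8 33 = true := by decide +kernel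
theorem chkD8_34_ok : chkD 8 34 = true := by decide +kernel
theorem chkA8_34_ok : chkA 8 34 = true := by decide +kernel
theorem chkD8_35_ok : chkD 8 35 = true := by decide +kernel
theorem chkA8_35_ok : chkA 8 35 = true := by decide +kernel

end Vale.Agent.Lib.P183
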