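import Vale.Agent.Lib.P183.Check
import Vale.Agent.Lib.P183.ChkOp7

namespace Vale.Agent.Lib.P183

theorem chkD9_0_ok : chkD 9 0 = true := by decide +kernel
theorem chkA9_0_ok : chkA 9 0 = true := by decide +kernel
theorem chkD9_1_ok : chkD 9 1 = true := by decide +kernel
theorem chkA9_1_ok : chkA 9 1 = true := by decide +kernel
theorem chkD9_2_ok : chkD 9 2 = true := by decide +kernel
theorem chkA9_2_ok : chkA 9 2 = true := by decide +kernel
theorem chkD9_3_ok : chkD 9 3 = true := by decide +kernel
theorem chkA9_3_ok : chkA 9 3 = true := by decide +kernel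
theorem chkD9_4_ok : chkD 9 4 = true := by decide +kernel
theorem chkA9_4_ok : chkA 9 4 = true := by decide +kernel
theorem chkD9_5_ok : chkD 9 5 = true := by decide +kernel
theorem chkA9_5_ok : chkA 9 5 = true := by decide +kernel
theorem chkD9_6_ok : chkD 9 6 = true := by decide +kernel
theorem chkA9_6_ok : chkA 9 6 = true := by decide +kernel
theorem chkD9_7_ok : chkD 9 7 = true := by decide +kernel
theorem chkA9_7_ok : chkA 9 7 = true := by decide +kernel
theorem chkD9_8_ok : chkD 9 8 = true := by decide +kernel
theorem chkA9_8_ok : chkA 9 8 = true := by decide +kernel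
theorem chkD9_9_ok : chkD 9 9 = true := by decide +kernel
theorem chkA9_9_ok : chkA 9 9 = true := by decide +kernel
theorem chkD9_10_ok : chkD 9 10 = true := by decide +kernel
theorem chkA9_10_ok : chkA 9 10 = true := by decide +kernel
theorem chkD9_11_ok : chkD 9 11 = true := by decide +kernel
theorem chkA9_11_ok : chkA 9 11 = true := by decide +kernel
theorem chkD9_12_ok : chkD 9 12 = true := by decide +kernel
theorem chkA9_12_ok : chkA 9 12 = true := by decide +kernel
theorem chkD9_13_ok : chkD 9 13 = true := by decide +kernel
theorem chkA9_13_ok : chkA 9 13 = true := by decide +kernel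
theorem chkD9_14_ok : chkD 9 14 = true := by decide +kernel
theorem chkA9_14_ok : chkA 9 14 = true := by decide +kernel
theorem chkD9_15_ok : chkD 9 15 = true := by decide +kernel
theorem chkA9_15_ok : chkA 9 15 = true := by decide +kernel
theorem chkD9_16_ok : chkD 9 16 = true := by decide +kernel
theorem chkA9_16_ok : chkA 9 16 = true := by decide +kernel
theorem chkD9_17_ok : chkD 9 17 = true := by decide +kernel
theorem chkA9_17_ok : chkA 9 17 = true := by decide +kernel
theorem chkD9_18_ok : chkD 9 18 = true := by decide +kernel
theorem chkA9_18_ok : chkA 9 18 = true := by decide +kernel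
theorem chkD9_19_ok : chkD 9 19 = true := by decide +kernel
theorem chkA9_19_ok : chkA 9 19 = true := by decide +kernel
theorem chkD9_20_ok : chkD 9 20 = true := by decide +kernel
theorem chkA9_20_ok : chkA 9 20 = true := by decide +kernel
theorem chkD9_21_ok : chkD 9 21 = true := by decide +kernel
theorem chkA9_21_ok : chkA 9 21 = true := by decide +kernel
theorem chkD9_22_ok : chkD 9 22 = true := by decide +kernel
theorem chkA9_22_ok : chkA 9 22 = true := by decide +kernel
theorem chkD9_23_ok : chkD 9 23 = true := by decide +kernel
theorem chkA9_23_ok : chkA 9 23 = true := by decide +kernel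
theorem chkD9_24_ok : chkD 9 24 = true := by decide +kernel
theorem chkA9_24_ok : chkA 9 24 = true := by decide +kernel
theorem chkD9_25_ok : chkD 9 25 = true := by decide +kernel
theorem chkA9_25_ok : chkA 9 25 = true := by decide +kernel
theorem chkD9_26_ok : chkD 9 26 = true := by decide +kernel
theorem chkA9_26_ok : chkA 9 26 = true := by decide +kernel
theorem chkD9_27_ok : chkD 9 27 = true := by decide +kernel
theorem chkA9_27_ok : chkA 9 27 = true := by decide +kernel
theorem chkD9_28_ok : chkD 9 28 = true := by decide +kernel
theorem chkA9_28_ok : chkA 9 28 = true := by decide +kernel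
theorem chkD9_29_ok : chkD 9 29 = true := by decide +kernel
theorem chkA9_29_ok : chkA 9 29 = true := by decide +kernel
theorem chkD9_30_ok : chkD 9 30 = true := by decide +kernel
theorem chkA9_30_ok : chkA 9 30 = true := by decide +kernel
theorem chkD9_31_ok : chkD 9 31 = true := by decide +kernel
theorem chkA9_31_ok : chkA 9 31 = true := by decide +kernel
theorem chkD9_32_ok : chkD 9 32 = true := by decide +kernel
theorem chkA9_32_ok : chkA 9 32 = true := by decide +kernel
theorem chkD9_33_ok : chkD 9 33 = true := by decide +kernel
theorem chkA9_33_ok : chkA 9 33 = true := by decide +kernel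
theorem chkD9_34_ok : chkD 9 34 = true := by decide +kernel
theorem chkA9_34_ok : chkA 9 34 = true := by decide +kernel
theorem chkD9_35_ok : chkD 9 35 = true := by decide +kernel
theorem chkA9_35_ok : chkA 9 35 = true := by decide +kernel

end Vale.Agent.Lib.P183
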