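import Vale.Agent.Lib.P183.Basic
import Vale.Agent.Lib.P183.ChkSmall
import Vale.Agent.Lib.P183.ChkRep
import Vale.Agent.Lib.P183.ChkRow0
import Vale.Agent.Lib.P183.ChkRow1
import Vale.Agent.Lib.P183.ChkRow2
import Vale.Agent.Lib.P183.ChkRow3
import Vale.Agent.Lib.P183.ChkRow4
import Vale.Agent.Lib.P183.ChkRow5
import Vale.Agent.Lib.P183.ChkRow6
import Vale.Agent.Lib.P183.ChkRow7
import Vale.Agent.Lib.P183.ChkRow8
import Vale.Agent.Lib.P183.ChkRow9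
import Vale.Agent.Lib.P183.ChkRow10
import Vale.Agent.Lib.P183.ChkRow11
import Vale.Agent.Lib.P183.ChkOp0
import Vale.Agent.Lib.P183.ChkOp1
import Vale.Agent.Lib.P183.ChkOp2
import Vale.Agent.Lib.P183.ChkOp3
import Vale.Agent.Lib.P183.ChkOp4
import Vale.Agent.Lib.P183.ChkOp5
import Vale.Agent.Lib.P183.ChkOp6
import Vale.Agent.Lib.P183.ChkOp7
import Vale.Agent.Lib.P183.ChkOp8
import Vale.Agent.Lib.P183.ChkOp9

/-! The kernel-checked Boolean facts, restated with quantifiers. -/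

namespace Vale.Agent.Lib.P183

theorem rowQ_spec {row x c : Nat} (h : chkRowQ row x c = true) (k : Nat) (hk : k < 240) :
    ∃ r, chkRec r x (240 * c + k) = true := ⟨_, allB_iff.1 h k hk⟩

theorem split240 (y : Nat) (hy : y < 960) : ∃ c k, c < 4 ∧ k < 240 ∧ y = 240 * c + k :=
  ⟨y / 240, y % 240, by omega, by omega, by omega⟩

theorem pts_ok_0 (y : Nat) (hy : y < 960) : ∃ r, chkRec r 0 y = true := by
  obtain ⟨c, k, hc, hk, rfl⟩ := split240 y hy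
  interval_cases c
  · exact rowQ_spec row0_0_ok k hk
  · exact rowQ_spec row0_1_ok k hk
  · exact rowQ_spec row0_2_ok k hk
  · exact rowQ_spec row0_3_ok k hk

theorem pts_ok_1 (y : Nat) (hy : y < 960) : ∃ r, chkRec r 1 y = true := by
  obtain ⟨c, k, hc, hk, rfl⟩ := split240 y hy
  interval_cases c
  · exact rowQ_spec row1_0_ok k hk
  · exact rowQ_spec row1_1_ok k hk
  · exact rowQ_spec row1_2_ok k hk
  · exact rowQ_spec row1_3_ok k hk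

theorem pts_ok_2 (y : Nat) (hy : y < 960) : ∃ r, chkRec r 2 y = true := by
  obtain ⟨c, k, hc, hk, rfl⟩ := split240 y hy
  interval_cases c
  · exact rowQ_spec row2_0_ok k hk
  · exact rowQ_spec row2_1_ok k hk
  · exact rowQ_spec row2_2_ok k hk
  · exact rowQ_spec row2_3_ok k hk

theorem pts_ok_3 (y : Nat) (hy : y < 960) : ∃ r, chkRec r 3 y = true := by
  obtain ⟨c, k, hc, hk, rfl⟩ := split240 y hy
  interval_cases c
  · exact rowQ_spec row3_0_ok k hk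
  · exact rowQ_spec row3_1_ok k hk
  · exact rowQ_spec row3_2_ok k hk
  · exact rowQ_spec row3_3_ok k hk

theorem pts_ok_4 (y : Nat) (hy : y < 960) : ∃ r, chkRec r 4 y = true := by
  obtain ⟨c, k, hc, hk, rfl⟩ := split240 y hy
  interval_cases c
  · exact rowQ_spec row4_0_ok k hk
  · exact rowQ_spec row4_1_ok k hk
  · exact rowQ_spec row4_2_ok k hk
  · exact rowQ_spec row4_3_ok k hk

theorem pts_ok_5 (y : Nat) (hy : y < 960) : ∃ r, chkRec r 5 y = true := by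
  obtain ⟨c, k, hc, hk, rfl⟩ := split240 y hy
  interval_cases c
  · exact rowQ_spec row5_0_ok k hk
  · exact rowQ_spec row5_1_ok k hk
  · exact rowQ_spec row5_2_ok k hk
  · exact rowQ_spec row5_3_ok k hk

theorem pts_ok_6 (y : Nat) (hy : y < 960) : ∃ r, chkRec r 6 y = true := by
  obtain ⟨c, k, hc, hk, rfl⟩ := split240 y hy
  interval_cases c
  · exact rowQ_spec row6_0_ok k hk
  · exact rowQ_spec row6_1_ok k hk
  · exact rowQ_spec row6_2_ok k hk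
  · exact rowQ_spec row6_3_ok k hk

theorem pts_ok_7 (y : Nat) (hy : y < 960) : ∃ r, chkRec r 7 y = true := by
  obtain ⟨c, k, hc, hk, rfl⟩ := split240 y hy
  interval_cases c
  · exact rowQ_spec row7_0_ok k hk
  · exact rowQ_spec row7_1_ok k hk
  · exact rowQ_spec row7_2_ok k hk
  · exact rowQ_spec row7_3_ok k hk

theorem pts_ok_8 (y : Nat) (hy : y < 960) : ∃ r, chkRec r 8 y = true := by
  obtain ⟨c, k, hc, hk, rfl⟩ := split240 y hy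
  interval_cases c
  · exact rowQ_spec row8_0_ok k hk
  · exact rowQ_spec row8_1_ok k hk
  · exact rowQ_spec row8_2_ok k hk
  · exact rowQ_spec row8_3_ok k hk

theorem pts_ok_9 (y : Nat) (hy : y < 960) : ∃ r, chkRec r 9 y = true := by
  obtain ⟨c, k, hc, hk, rfl⟩ := split240 y hy
  interval_cases c
  · exact rowQ_spec row9_0_ok k hk
  · exact rowQ_spec row9_1_ok k hk
  · exact rowQ_spec row9_2_ok k hk
  · exact rowQ_spec row9_3_ok k hk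

theorem pts_ok_10 (y : Nat) (hy : y < 960) : ∃ r, chkRec r 10 y = true := by
  obtain ⟨c, k, hc, hk, rfl⟩ := split240 y hy
  interval_cases c
  · exact rowQ_spec row10_0_ok k hk
  · exact rowQ_spec row10_1_ok k hk
  · exact rowQ_spec row10_2_ok k hk
  · exact rowQ_spec row10_3_ok k hk

theorem pts_ok_11 (y : Nat) (hy : y < 960) : ∃ r, chkRec r 11 y = true := by
  obtain ⟨c, k, hc, hk, rfl⟩ := split240 y hy
  interval_cases c
  · exact rowQ_spec row11_0_ok k hk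
  · exact rowQ_spec row11_1_ok k hk
  · exact rowQ_spec row11_2_ok k hk
  · exact rowQ_spec row11_3_ok k hk

theorem pts_ok_12 (y : Nat) (hy : y < 960) : ∃ r, chkRec r 12 y = true := by
  obtain ⟨c, k, hc, hk, rfl⟩ := split240 y hy
  interval_cases c
  · exact rowQ_spec row12_0_ok k hk
  · exact rowQ_spec row12_1_ok k hk
  · exact rowQ_spec row12_2_ok k hk
  · exact rowQ_spec row12_3_ok k hk

theorem pts_ok_13 (y : Nat) (hy : y < 960) : ∃ r, chkRec r 13 y = true := by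
  obtain ⟨c, k, hc, hk, rfl⟩ := split240 y hy
  interval_cases c
  · exact rowQ_spec row13_0_ok k hk
  · exact rowQ_spec row13_1_ok k hk
  · exact rowQ_spec row13_2_ok k hk
  · exact rowQ_spec row13_3_ok k hk

theorem pts_ok_14 (y : Nat) (hy : y < 960) : ∃ r, chkRec r 14 y = true := by
  obtain ⟨c, k, hc, hk, rfl⟩ := split240 y hy
  interval_cases c
  · exact rowQ_spec row14_0_ok k hk
  · exact rowQ_spec row14_1_ok k hk
  · exact rowQ_spec row14_2_ok k hk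
  · exact rowQ_spec row14_3_ok k hk

theorem pts_ok_15 (y : Nat) (hy : y < 960) : ∃ r, chkRec r 15 y = true := by
  obtain ⟨c, k, hc, hk, rfl⟩ := split240 y hy
  interval_cases c
  · exact rowQ_spec row15_0_ok k hk
  · exact rowQ_spec row15_1_ok k hk
  · exact rowQ_spec row15_2_ok k hk
  · exact rowQ_spec row15_3_ok k hk

theorem pts_ok_16 (y : Nat) (hy : y < 960) : ∃ r, chkRec r 16 y = true := by
  obtain ⟨c, k, hc, hk, rfl⟩ := split240 y hy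
  interval_cases c
  · exact rowQ_spec row16_0_ok k hk
  · exact rowQ_spec row16_1_ok k hk
  · exact rowQ_spec row16_2_ok k hk
  · exact rowQ_spec row16_3_ok k hk

theorem pts_ok_17 (y : Nat) (hy : y < 960) : ∃ r, chkRec r 17 y = true := by
  obtain ⟨c, k, hc, hk, rfl⟩ := split240 y hy
  interval_cases c
  · exact rowQ_spec row17_0_ok k hk
  · exact rowQ_spec row17_1_ok k hk
  · exact rowQ_spec row17_2_ok k hk
  · exact rowQ_spec row17_3_ok k hk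

theorem pts_ok_18 (y : Nat) (hy : y < 960) : ∃ r, chkRec r 18 y = true := by
  obtain ⟨c, k, hc, hk, rfl⟩ := split240 y hy
  interval_cases c
  · exact rowQ_spec row18_0_ok k hk
  · exact rowQ_spec row18_1_ok k hk
  · exact rowQ_spec row18_2_ok k hk
  · exact rowQ_spec row18_3_ok k hk

theorem pts_ok_19 (y : Nat) (hy : y < 960) : ∃ r, chkRec r 19 y = true := by
  obtain ⟨c, k, hc, hk, rfl⟩ := split240 y hy
  interval_cases c
  · exact rowQ_spec row19_0_ok k hk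
  · exact rowQ_spec row19_1_ok k hk
  · exact rowQ_spec row19_2_ok k hk
  · exact rowQ_spec row19_3_ok k hk

theorem pts_ok_20 (y : Nat) (hy : y < 960) : ∃ r, chkRec r 20 y = true := by
  obtain ⟨c, k, hc, hk, rfl⟩ := split240 y hy
  interval_cases c
  · exact rowQ_spec row20_0_ok k hk
  · exact rowQ_spec row20_1_ok k hk
  · exact rowQ_spec row20_2_ok k hk
  · exact rowQ_spec row20_3_ok k hk

theorem pts_ok_21 (y : Nat) (hy : y < 960) : ∃ r, chkRec r 21 y = true := by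
  obtain ⟨c, k, hc, hk, rfl⟩ := split240 y hy
  interval_cases c
  · exact rowQ_spec row21_0_ok k hk
  · exact rowQ_spec row21_1_ok k hk
  · exact rowQ_spec row21_2_ok k hk
  · exact rowQ_spec row21_3_ok k hk

theorem pts_ok_22 (y : Nat) (hy : y < 960) : ∃ r, chkRec r 22 y = true := by
  obtain ⟨c, k, hc, hk, rfl⟩ := split240 y hy
  interval_cases c
  · exact rowQ_spec row22_0_ok k hk
  · exact rowQ_spec row22_1_ok k hk
  · exact rowQ_spec row22_2_ok k hk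
  · exact rowQ_spec row22_3_ok k hk

theorem pts_ok_23 (y : Nat) (hy : y < 960) : ∃ r, chkRec r 23 y = true := by
  obtain ⟨c, k, hc, hk, rfl⟩ := split240 y hy
  interval_cases c
  · exact rowQ_spec row23_0_ok k hk
  · exact rowQ_spec row23_1_ok k hk
  · exact rowQ_spec row23_2_ok k hk
  · exact rowQ_spec row23_3_ok k hk

theorem pts_ok_24 (y : Nat) (hy : y < 960) : ∃ r, chkRec r 24 y = true := by
  obtain ⟨c, k, hc, hk, rfl⟩ := split240 y hy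
  interval_cases c
  · exact rowQ_spec row24_0_ok k hk
  · exact rowQ_spec row24_1_ok k hk
  · exact rowQ_spec row24_2_ok k hk
  · exact rowQ_spec row24_3_ok k hk

theorem pts_ok_25 (y : Nat) (hy : y < 960) : ∃ r, chkRec r 25 y = true := by
  obtain ⟨c, k, hc, hk, rfl⟩ := split240 y hy
  interval_cases c
  · exact rowQ_spec row25_0_ok k hk
  · exact rowQ_spec row25_1_ok k hk
  · exact rowQ_spec row25_2_ok k hk
  · exact rowQ_spec row25_3_ok k hk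

theorem pts_ok_26 (y : Nat) (hy : y < 960) : ∃ r, chkRec r 26 y = true := by
  obtain ⟨c, k, hc, hk, rfl⟩ := split240 y hy
  interval_cases c
  · exact rowQ_spec row26_0_ok k hk
  · exact rowQ_spec row26_1_ok k hk
  · exact rowQ_spec row26_2_ok k hk
  · exact rowQ_spec row26_3_ok k hk

theorem pts_ok_27 (y : Nat) (hy : y < 960) : ∃ r, chkRec r 27 y = true := by
  obtain ⟨c, k, hc, hk, rfl⟩ := split240 y hy
  interval_cases c
  · exact rowQ_spec row27_0_ok k hk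
  · exact rowQ_spec row27_1_ok k hk
  · exact rowQ_spec row27_2_ok k hk
  · exact rowQ_spec row27_3_ok k hk

theorem pts_ok_28 (y : Nat) (hy : y < 960) : ∃ r, chkRec r 28 y = true := by
  obtain ⟨c, k, hc, hk, rfl⟩ := split240 y hy
  interval_cases c
  · exact rowQ_spec row28_0_ok k hk
  · exact rowQ_spec row28_1_ok k hk
  · exact rowQ_spec row28_2_ok k hk
  · exact rowQ_spec row28_3_ok k hk

theorem pts_ok_29 (y : Nat) (hy : y < 960) : ∃ r, chkRec r 29 y = true := by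
  obtain ⟨c, k, hc, hk, rfl⟩ := split240 y hy
  interval_cases c
  · exact rowQ_spec row29_0_ok k hk
  · exact rowQ_spec row29_1_ok k hk
  · exact rowQ_spec row29_2_ok k hk
  · exact rowQ_spec row29_3_ok k hk

theorem pts_ok_30 (y : Nat) (hy : y < 960) : ∃ r, chkRec r 30 y = true := by
  obtain ⟨c, k, hc, hk, rfl⟩ := split240 y hy
  interval_cases c
  · exact rowQ_spec row30_0_ok k hk
  · exact rowQ_spec row30_1_ok k hk
  · exact rowQ_spec row30_2_ok k hk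
  · exact rowQ_spec row30_3_ok k hk

theorem pts_ok_31 (y : Nat) (hy : y < 960) : ∃ r, chkRec r 31 y = true := by
  obtain ⟨c, k, hc, hk, rfl⟩ := split240 y hy
  interval_cases c
  · exact rowQ_spec row31_0_ok k hk
  · exact rowQ_spec row31_1_ok k hk
  · exact rowQ_spec row31_2_ok k hk
  · exact rowQ_spec row31_3_ok k hk

theorem pts_ok_32 (y : Nat) (hy : y < 960) : ∃ r, chkRec r 32 y = true := by
  obtain ⟨c, k, hc, hk, rfl⟩ := split240 y hy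
  interval_cases c
  · exact rowQ_spec row32_0_ok k hk
  · exact rowQ_spec row32_1_ok k hk
  · exact rowQ_spec row32_2_ok k hk
  · exact rowQ_spec row32_3_ok k hk

theorem pts_ok_33 (y : Nat) (hy : y < 960) : ∃ r, chkRec r 33 y = true := by
  obtain ⟨c, k, hc, hk, rfl⟩ := split240 y hy
  interval_cases c
  · exact rowQ_spec row33_0_ok k hk
  · exact rowQ_spec row33_1_ok k hk
  · exact rowQ_spec row33_2_ok k hk
  · exact rowQ_spec row33_3_ok k hk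

theorem pts_ok_34 (y : Nat) (hy : y < 960) : ∃ r, chkRec r 34 y = true := by
  obtain ⟨c, k, hc, hk, rfl⟩ := split240 y hy
  interval_cases c
  · exact rowQ_spec row34_0_ok k hk
  · exact rowQ_spec row34_1_ok k hk
  · exact rowQ_spec row34_2_ok k hk
  · exact rowQ_spec row34_3_ok k hk

theorem pts_ok_35 (y : Nat) (hy : y < 960) : ∃ r, chkRec r 35 y = true := by
  obtain ⟨c, k, hc, hk, rfl⟩ := split240 y hy
  interval_cases c
  · exact rowQ_spec row35_0_ok k hk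
  · exact rowQ_spec row35_1_ok k hk
  · exact rowQ_spec row35_2_ok k hk
  · exact rowQ_spec row35_3_ok k hk

theorem pts_ok (x y : Nat) (hx : x < 36) (hy : y < 960) : ∃ r, chkRec r x y = true := by
  interval_cases x
  · exact pts_ok_0 y hy
  · exact pts_ok_1 y hy
  · exact pts_ok_2 y hy
  · exact pts_ok_3 y hy
  · exact pts_ok_4 y hy
  · exact pts_ok_5 y hy
  · exact pts_ok_6 y hy
  · exact pts_ok_7 y hy
  · exact pts_ok_8 y hy
  · exact pts_ok_9 y hy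
  · exact pts_ok_10 y hy
  · exact pts_ok_11 y hy
  · exact pts_ok_12 y hy
  · exact pts_ok_13 y hy
  · exact pts_ok_14 y hy
  · exact pts_ok_15 y hy
  · exact pts_ok_16 y hy
  · exact pts_ok_17 y hy
  · exact pts_ok_18 y hy
  · exact pts_ok_19 y hy
  · exact pts_ok_20 y hy
  · exact pts_ok_21 y hy
  · exact pts_ok_22 y hy
  · exact pts_ok_23 y hy
  · exact pts_ok_24 y hy
  · exact pts_ok_25 y hy
  · exact pts_ok_26 y hy
  · exact pts_ok_27 y hy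
  · exact pts_ok_28 y hy
  · exact pts_ok_29 y hy
  · exact pts_ok_30 y hy
  · exact pts_ok_31 y hy
  · exact pts_ok_32 y hy
  · exact pts_ok_33 y hy
  · exact pts_ok_34 y hy
  · exact pts_ok_35 y hy

theorem compatD_0 (x y : Nat) (hx : x < 36) (hy : y < 960) :
    kD (opX 0 x) (opY 0 y) = opZ 0 (kD x y) := by
  interval_cases x
  · exact nbeq_iff.1 (allB_iff.1 chkD0_0_ok y hy)
  · exact nbeq_iff.1 (allB_iff.1 chkD0_1_ok y hy)
  · exact nbeq_iff.1 (allB_iff.1 chkD0_2_ok y hy)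
  · exact nbeq_iff.1 (allB_iff.1 chkD0_3_ok y hy)
  · exact nbeq_iff.1 (allB_iff.1 chkD0_4_ok y hy)
  · exact nbeq_iff.1 (allB_iff.1 chkD0_5_ok y hy)
  · exact nbeq_iff.1 (allB_iff.1 chkD0_6_ok y hy)
  · exact nbeq_iff.1 (allB_iff.1 chkD0_7_ok y hy)
  · exact nbeq_iff.1 (allB_iff.1 chkD0_8_ok y hy)
  · exact nbeq_iff.1 (allB_iff.1 chkD0_9_ok y hy)
  · exact nbeq_iff.1 (allB_iff.1 chkD0_10_ok y hy)
  · exact nbeq_iff.1 (allB_iff.1 chkD0_11_ok y hy)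
  · exact nbeq_iff.1 (allB_iff.1 chkD0_12_ok y hy)
  · exact nbeq_iff.1 (allB_iff.1 chkD0_13_ok y hy)
  · exact nbeq_iff.1 (allB_iff.1 chkD0_14_ok y hy)
  · exact nbeq_iff.1 (allB_iff.1 chkD0_15_ok y hy)
  · exact nbeq_iff.1 (allB_iff.1 chkD0_16_ok y hy)
  · exact nbeq_iff.1 (allB_iff.1 chkD0_17_ok y hy)
  · exact nbeq_iff.1 (allB_iff.1 chkD0_18_ok y hy)
  · exact nbeq_iff.1 (allB_iff.1 chkD0_19_ok y hy)
  · exact nbeq_iff.1 (allB_iff.1 chkD0_20_ok y hy)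
  · exact nbeq_iff.1 (allB_iff.1 chkD0_21_ok y hy)
  · exact nbeq_iff.1 (allB_iff.1 chkD0_22_ok y hy)
  · exact nbeq_iff.1 (allB_iff.1 chkD0_23_ok y hy)
  · exact nbeq_iff.1 (allB_iff.1 chkD0_24_ok y hy)
  · exact nbeq_iff.1 (allB_iff.1 chkD0_25_ok y hy)
  · exact nbeq_iff.1 (allB_iff.1 chkD0_26_ok y hy)
  · exact nbeq_iff.1 (allB_iff.1 chkD0_27_ok y hy)
  · exact nbeq_iff.1 (allB_iff.1 chkD0_28_ok y hy)
  · exact nbeq_iff.1 (allB_iff.1 chkD0_29_ok y hy)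
  · exact nbeq_iff.1 (allB_iff.1 chkD0_30_ok y hy)
  · exact nbeq_iff.1 (allB_iff.1 chkD0_31_ok y hy)
  · exact nbeq_iff.1 (allB_iff.1 chkD0_32_ok y hy)
  · exact nbeq_iff.1 (allB_iff.1 chkD0_33_ok y hy)
  · exact nbeq_iff.1 (allB_iff.1 chkD0_34_ok y hy)
  · exact nbeq_iff.1 (allB_iff.1 chkD0_35_ok y hy)

theorem compatD_1 (x y : Nat) (hx : x < 36) (hy : y < 960) :
    kD (opX 1 x) (opY 1 y) = opZ 1 (kD x y) := by
  interval_cases x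
  · exact nbeq_iff.1 (allB_iff.1 chkD1_0_ok y hy)
  · exact nbeq_iff.1 (allB_iff.1 chkD1_1_ok y hy)
  · exact nbeq_iff.1 (allB_iff.1 chkD1_2_ok y hy)
  · exact nbeq_iff.1 (allB_iff.1 chkD1_3_ok y hy)
  · exact nbeq_iff.1 (allB_iff.1 chkD1_4_ok y hy)
  · exact nbeq_iff.1 (allB_iff.1 chkD1_5_ok y hy)
  · exact nbeq_iff.1 (allB_iff.1 chkD1_6_ok y hy)
  · exact nbeq_iff.1 (allB_iff.1 chkD1_7_ok y hy)
  · exact nbeq_iff.1 (allB_iff.1 chkD1_8_ok y hy)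
  · exact nbeq_iff.1 (allB_iff.1 chkD1_9_ok y hy)
  · exact nbeq_iff.1 (allB_iff.1 chkD1_10_ok y hy)
  · exact nbeq_iff.1 (allB_iff.1 chkD1_11_ok y hy)
  · exact nbeq_iff.1 (allB_iff.1 chkD1_12_ok y hy)
  · exact nbeq_iff.1 (allB_iff.1 chkD1_13_ok y hy)
  · exact nbeq_iff.1 (allB_iff.1 chkD1_14_ok y hy)
  · exact nbeq_iff.1 (allB_iff.1 chkD1_15_ok y hy)
  · exact nbeq_iff.1 (allB_iff.1 chkD1_16_ok y hy)
  · exact nbeq_iff.1 (allB_iff.1 chkD1_17_ok y hy)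
  · exact nbeq_iff.1 (allB_iff.1 chkD1_18_ok y hy)
  · exact nbeq_iff.1 (allB_iff.1 chkD1_19_ok y hy)
  · exact nbeq_iff.1 (allB_iff.1 chkD1_20_ok y hy)
  · exact nbeq_iff.1 (allB_iff.1 chkD1_21_ok y hy)
  · exact nbeq_iff.1 (allB_iff.1 chkD1_22_ok y hy)
  · exact nbeq_iff.1 (allB_iff.1 chkD1_23_ok y hy)
  · exact nbeq_iff.1 (allB_iff.1 chkD1_24_ok y hy)
  · exact nbeq_iff.1 (allB_iff.1 chkD1_25_ok y hy)
  · exact nbeq_iff.1 (allB_iff.1 chkD1_26_ok y hy)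
  · exact nbeq_iff.1 (allB_iff.1 chkD1_27_ok y hy)
  · exact nbeq_iff.1 (allB_iff.1 chkD1_28_ok y hy)
  · exact nbeq_iff.1 (allB_iff.1 chkD1_29_ok y hy)
  · exact nbeq_iff.1 (allB_iff.1 chkD1_30_ok y hy)
  · exact nbeq_iff.1 (allB_iff.1 chkD1_31_ok y hy)
  · exact nbeq_iff.1 (allB_iff.1 chkD1_32_ok y hy)
  · exact nbeq_iff.1 (allB_iff.1 chkD1_33_ok y hy)
  · exact nbeq_iff.1 (allB_iff.1 chkD1_34_ok y hy)
  · exact nbeq_iff.1 (allB_iff.1 chkD1_35_ok y hy)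

theorem compatD_2 (x y : Nat) (hx : x < 36) (hy : y < 960) :
    kD (opX 2 x) (opY 2 y) = opZ 2 (kD x y) := by
  interval_cases x
  · exact nbeq_iff.1 (allB_iff.1 chkD2_0_ok y hy)
  · exact nbeq_iff.1 (allB_iff.1 chkD2_1_ok y hy)
  · exact nbeq_iff.1 (allB_iff.1 chkD2_2_ok y hy)
  · exact nbeq_iff.1 (allB_iff.1 chkD2_3_ok y hy)
  · exact nbeq_iff.1 (allB_iff.1 chkD2_4_ok y hy)
  · exact nbeq_iff.1 (allB_iff.1 chkD2_5_ok y hy)
  · exact nbeq_iff.1 (allB_iff.1 chkD2_6_ok y hy)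
  · exact nbeq_iff.1 (allB_iff.1 chkD2_7_ok y hy)
  · exact nbeq_iff.1 (allB_iff.1 chkD2_8_ok y hy)
  · exact nbeq_iff.1 (allB_iff.1 chkD2_9_ok y hy)
  · exact nbeq_iff.1 (allB_iff.1 chkD2_10_ok y hy)
  · exact nbeq_iff.1 (allB_iff.1 chkD2_11_ok y hy)
  · exact nbeq_iff.1 (allB_iff.1 chkD2_12_ok y hy)
  · exact nbeq_iff.1 (allB_iff.1 chkD2_13_ok y hy)
  · exact nbeq_iff.1 (allB_iff.1 chkD2_14_ok y hy)
  · exact nbeq_iff.1 (allB_iff.1 chkD2_15_ok y hy)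
  · exact nbeq_iff.1 (allB_iff.1 chkD2_16_ok y hy)
  · exact nbeq_iff.1 (allB_iff.1 chkD2_17_ok y hy)
  · exact nbeq_iff.1 (allB_iff.1 chkD2_18_ok y hy)
  · exact nbeq_iff.1 (allB_iff.1 chkD2_19_ok y hy)
  · exact nbeq_iff.1 (allB_iff.1 chkD2_20_ok y hy)
  · exact nbeq_iff.1 (allB_iff.1 chkD2_21_ok y hy)
  · exact nbeq_iff.1 (allB_iff.1 chkD2_22_ok y hy)
  · exact nbeq_iff.1 (allB_iff.1 chkD2_23_ok y hy)
  · exact nbeq_iff.1 (allB_iff.1 chkD2_24_ok y hy)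
  · exact nbeq_iff.1 (allB_iff.1 chkD2_25_ok y hy)
  · exact nbeq_iff.1 (allB_iff.1 chkD2_26_ok y hy)
  · exact nbeq_iff.1 (allB_iff.1 chkD2_27_ok y hy)
  · exact nbeq_iff.1 (allB_iff.1 chkD2_28_ok y hy)
  · exact nbeq_iff.1 (allB_iff.1 chkD2_29_ok y hy)
  · exact nbeq_iff.1 (allB_iff.1 chkD2_30_ok y hy)
  · exact nbeq_iff.1 (allB_iff.1 chkD2_31_ok y hy)
  · exact nbeq_iff.1 (allB_iff.1 chkD2_32_ok y hy)
  · exact nbeq_iff.1 (allB_iff.1 chkD2_33_ok y hy)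
  · exact nbeq_iff.1 (allB_iff.1 chkD2_34_ok y hy)
  · exact nbeq_iff.1 (allB_iff.1 chkD2_35_ok y hy)

theorem compatD_3 (x y : Nat) (hx : x < 36) (hy : y < 960) :
    kD (opX 3 x) (opY 3 y) = opZ 3 (kD x y) := by
  interval_cases x
  · exact nbeq_iff.1 (allB_iff.1 chkD3_0_ok y hy)
  · exact nbeq_iff.1 (allB_iff.1 chkD3_1_ok y hy)
  · exact nbeq_iff.1 (allB_iff.1 chkD3_2_ok y hy)
  · exact nbeq_iff.1 (allB_iff.1 chkD3_3_ok y hy)
  · exact nbeq_iff.1 (allB_iff.1 chkD3_4_ok y hy)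
  · exact nbeq_iff.1 (allB_iff.1 chkD3_5_ok y hy)
  · exact nbeq_iff.1 (allB_iff.1 chkD3_6_ok y hy)
  · exact nbeq_iff.1 (allB_iff.1 chkD3_7_ok y hy)
  · exact nbeq_iff.1 (allB_iff.1 chkD3_8_ok y hy)
  · exact nbeq_iff.1 (allB_iff.1 chkD3_9_ok y hy)
  · exact nbeq_iff.1 (allB_iff.1 chkD3_10_ok y hy)
  · exact nbeq_iff.1 (allB_iff.1 chkD3_11_ok y hy)
  · exact nbeq_iff.1 (allB_iff.1 chkD3_12_ok y hy)
  · exact nbeq_iff.1 (allB_iff.1 chkD3_13_ok y hy)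
  · exact nbeq_iff.1 (allB_iff.1 chkD3_14_ok y hy)
  · exact nbeq_iff.1 (allB_iff.1 chkD3_15_ok y hy)
  · exact nbeq_iff.1 (allB_iff.1 chkD3_16_ok y hy)
  · exact nbeq_iff.1 (allB_iff.1 chkD3_17_ok y hy)
  · exact nbeq_iff.1 (allB_iff.1 chkD3_18_ok y hy)
  · exact nbeq_iff.1 (allB_iff.1 chkD3_19_ok y hy)
  · exact nbeq_iff.1 (allB_iff.1 chkD3_20_ok y hy)
  · exact nbeq_iff.1 (allB_iff.1 chkD3_21_ok y hy)
  · exact nbeq_iff.1 (allB_iff.1 chkD3_22_ok y hy)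
  · exact nbeq_iff.1 (allB_iff.1 chkD3_23_ok y hy)
  · exact nbeq_iff.1 (allB_iff.1 chkD3_24_ok y hy)
  · exact nbeq_iff.1 (allB_iff.1 chkD3_25_ok y hy)
  · exact nbeq_iff.1 (allB_iff.1 chkD3_26_ok y hy)
  · exact nbeq_iff.1 (allB_iff.1 chkD3_27_ok y hy)
  · exact nbeq_iff.1 (allB_iff.1 chkD3_28_ok y hy)
  · exact nbeq_iff.1 (allB_iff.1 chkD3_29_ok y hy)
  · exact nbeq_iff.1 (allB_iff.1 chkD3_30_ok y hy)
  · exact nbeq_iff.1 (allB_iff.1 chkD3_31_ok y hy)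
  · exact nbeq_iff.1 (allB_iff.1 chkD3_32_ok y hy)
  · exact nbeq_iff.1 (allB_iff.1 chkD3_33_ok y hy)
  · exact nbeq_iff.1 (allB_iff.1 chkD3_34_ok y hy)
  · exact nbeq_iff.1 (allB_iff.1 chkD3_35_ok y hy)

theorem compatD_4 (x y : Nat) (hx : x < 36) (hy : y < 960) :
    kD (opX 4 x) (opY 4 y) = opZ 4 (kD x y) := by
  interval_cases x
  · exact nbeq_iff.1 (allB_iff.1 chkD4_0_ok y hy)
  · exact nbeq_iff.1 (allB_iff.1 chkD4_1_ok y hy)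
  · exact nbeq_iff.1 (allB_iff.1 chkD4_2_ok y hy)
  · exact nbeq_iff.1 (allB_iff.1 chkD4_3_ok y hy)
  · exact nbeq_iff.1 (allB_iff.1 chkD4_4_ok y hy)
  · exact nbeq_iff.1 (allB_iff.1 chkD4_5_ok y hy)
  · exact nbeq_iff.1 (allB_iff.1 chkD4_6_ok y hy)
  · exact nbeq_iff.1 (allB_iff.1 chkD4_7_ok y hy)
  · exact nbeq_iff.1 (allB_iff.1 chkD4_8_ok y hy)
  · exact nbeq_iff.1 (allB_iff.1 chkD4_9_ok y hy)
  · exact nbeq_iff.1 (allB_iff.1 chkD4_10_ok y hy)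
  · exact nbeq_iff.1 (allB_iff.1 chkD4_11_ok y hy)
  · exact nbeq_iff.1 (allB_iff.1 chkD4_12_ok y hy)
  · exact nbeq_iff.1 (allB_iff.1 chkD4_13_ok y hy)
  · exact nbeq_iff.1 (allB_iff.1 chkD4_14_ok y hy)
  · exact nbeq_iff.1 (allB_iff.1 chkD4_15_ok y hy)
  · exact nbeq_iff.1 (allB_iff.1 chkD4_16_ok y hy)
  · exact nbeq_iff.1 (allB_iff.1 chkD4_17_ok y hy)
  · exact nbeq_iff.1 (allB_iff.1 chkD4_18_ok y hy)
  · exact nbeq_iff.1 (allB_iff.1 chkD4_19_ok y hy)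
  · exact nbeq_iff.1 (allB_iff.1 chkD4_20_ok y hy)
  · exact nbeq_iff.1 (allB_iff.1 chkD4_21_ok y hy)
  · exact nbeq_iff.1 (allB_iff.1 chkD4_22_ok y hy)
  · exact nbeq_iff.1 (allB_iff.1 chkD4_23_ok y hy)
  · exact nbeq_iff.1 (allB_iff.1 chkD4_24_ok y hy)
  · exact nbeq_iff.1 (allB_iff.1 chkD4_25_ok y hy)
  · exact nbeq_iff.1 (allB_iff.1 chkD4_26_ok y hy)
  · exact nbeq_iff.1 (allB_iff.1 chkD4_27_ok y hy)
  · exact nbeq_iff.1 (allB_iff.1 chkD4_28_ok y hy)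
  · exact nbeq_iff.1 (allB_iff.1 chkD4_29_ok y hy)
  · exact nbeq_iff.1 (allB_iff.1 chkD4_30_ok y hy)
  · exact nbeq_iff.1 (allB_iff.1 chkD4_31_ok y hy)
  · exact nbeq_iff.1 (allB_iff.1 chkD4_32_ok y hy)
  · exact nbeq_iff.1 (allB_iff.1 chkD4_33_ok y hy)
  · exact nbeq_iff.1 (allB_iff.1 chkD4_34_ok y hy)
  · exact nbeq_iff.1 (allB_iff.1 chkD4_35_ok y hy)

theorem compatD_5 (x y : Nat) (hx : x < 36) (hy : y < 960) :
    kD (opX 5 x) (opY 5 y) = opZ 5 (kD x y) := by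
  interval_cases x
  · exact nbeq_iff.1 (allB_iff.1 chkD5_0_ok y hy)
  · exact nbeq_iff.1 (allB_iff.1 chkD5_1_ok y hy)
  · exact nbeq_iff.1 (allB_iff.1 chkD5_2_ok y hy)
  · exact nbeq_iff.1 (allB_iff.1 chkD5_3_ok y hy)
  · exact nbeq_iff.1 (allB_iff.1 chkD5_4_ok y hy)
  · exact nbeq_iff.1 (allB_iff.1 chkD5_5_ok y hy)
  · exact nbeq_iff.1 (allB_iff.1 chkD5_6_ok y hy)
  · exact nbeq_iff.1 (allB_iff.1 chkD5_7_ok y hy)
  · exact nbeq_iff.1 (allB_iff.1 chkD5_8_ok y hy)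
  · exact nbeq_iff.1 (allB_iff.1 chkD5_9_ok y hy)
  · exact nbeq_iff.1 (allB_iff.1 chkD5_10_ok y hy)
  · exact nbeq_iff.1 (allB_iff.1 chkD5_11_ok y hy)
  · exact nbeq_iff.1 (allB_iff.1 chkD5_12_ok y hy)
  · exact nbeq_iff.1 (allB_iff.1 chkD5_13_ok y hy)
  · exact nbeq_iff.1 (allB_iff.1 chkD5_14_ok y hy)
  · exact nbeq_iff.1 (allB_iff.1 chkD5_15_ok y hy)
  · exact nbeq_iff.1 (allB_iff.1 chkD5_16_ok y hy)
  · exact nbeq_iff.1 (allB_iff.1 chkD5_17_ok y hy)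
  · exact nbeq_iff.1 (allB_iff.1 chkD5_18_ok y hy)
  · exact nbeq_iff.1 (allB_iff.1 chkD5_19_ok y hy)
  · exact nbeq_iff.1 (allB_iff.1 chkD5_20_ok y hy)
  · exact nbeq_iff.1 (allB_iff.1 chkD5_21_ok y hy)
  · exact nbeq_iff.1 (allB_iff.1 chkD5_22_ok y hy)
  · exact nbeq_iff.1 (allB_iff.1 chkD5_23_ok y hy)
  · exact nbeq_iff.1 (allB_iff.1 chkD5_24_ok y hy)
  · exact nbeq_iff.1 (allB_iff.1 chkD5_25_ok y hy)
  · exact nbeq_iff.1 (allB_iff.1 chkD5_26_ok y hy)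
  · exact nbeq_iff.1 (allB_iff.1 chkD5_27_ok y hy)
  · exact nbeq_iff.1 (allB_iff.1 chkD5_28_ok y hy)
  · exact nbeq_iff.1 (allB_iff.1 chkD5_29_ok y hy)
  · exact nbeq_iff.1 (allB_iff.1 chkD5_30_ok y hy)
  · exact nbeq_iff.1 (allB_iff.1 chkD5_31_ok y hy)
  · exact nbeq_iff.1 (allB_iff.1 chkD5_32_ok y hy)
  · exact nbeq_iff.1 (allB_iff.1 chkD5_33_ok y hy)
  · exact nbeq_iff.1 (allB_iff.1 chkD5_34_ok y hy)
  · exact nbeq_iff.1 (allB_iff.1 chkD5_35_ok y hy)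

theorem compatD_6 (x y : Nat) (hx : x < 36) (hy : y < 960) :
    kD (opX 6 x) (opY 6 y) = opZ 6 (kD x y) := by
  interval_cases x
  · exact nbeq_iff.1 (allB_iff.1 chkD6_0_ok y hy)
  · exact nbeq_iff.1 (allB_iff.1 chkD6_1_ok y hy)
  · exact nbeq_iff.1 (allB_iff.1 chkD6_2_ok y hy)
  · exact nbeq_iff.1 (allB_iff.1 chkD6_3_ok y hy)
  · exact nbeq_iff.1 (allB_iff.1 chkD6_4_ok y hy)
  · exact nbeq_iff.1 (allB_iff.1 chkD6_5_ok y hy)
  · exact nbeq_iff.1 (allB_iff.1 chkD6_6_ok y hy)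
  · exact nbeq_iff.1 (allB_iff.1 chkD6_7_ok y hy)
  · exact nbeq_iff.1 (allB_iff.1 chkD6_8_ok y hy)
  · exact nbeq_iff.1 (allB_iff.1 chkD6_9_ok y hy)
  · exact nbeq_iff.1 (allB_iff.1 chkD6_10_ok y hy)
  · exact nbeq_iff.1 (allB_iff.1 chkD6_11_ok y hy)
  · exact nbeq_iff.1 (allB_iff.1 chkD6_12_ok y hy)
  · exact nbeq_iff.1 (allB_iff.1 chkD6_13_ok y hy)
  · exact nbeq_iff.1 (allB_iff.1 chkD6_14_ok y hy)
  · exact nbeq_iff.1 (allB_iff.1 chkD6_15_ok y hy)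
  · exact nbeq_iff.1 (allB_iff.1 chkD6_16_ok y hy)
  · exact nbeq_iff.1 (allB_iff.1 chkD6_17_ok y hy)
  · exact nbeq_iff.1 (allB_iff.1 chkD6_18_ok y hy)
  · exact nbeq_iff.1 (allB_iff.1 chkD6_19_ok y hy)
  · exact nbeq_iff.1 (allB_iff.1 chkD6_20_ok y hy)
  · exact nbeq_iff.1 (allB_iff.1 chkD6_21_ok y hy)
  · exact nbeq_iff.1 (allB_iff.1 chkD6_22_ok y hy)
  · exact nbeq_iff.1 (allB_iff.1 chkD6_23_ok y hy)
  · exact nbeq_iff.1 (allB_iff.1 chkD6_24_ok y hy)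
  · exact nbeq_iff.1 (allB_iff.1 chkD6_25_ok y hy)
  · exact nbeq_iff.1 (allB_iff.1 chkD6_26_ok y hy)
  · exact nbeq_iff.1 (allB_iff.1 chkD6_27_ok y hy)
  · exact nbeq_iff.1 (allB_iff.1 chkD6_28_ok y hy)
  · exact nbeq_iff.1 (allB_iff.1 chkD6_29_ok y hy)
  · exact nbeq_iff.1 (allB_iff.1 chkD6_30_ok y hy)
  · exact nbeq_iff.1 (allB_iff.1 chkD6_31_ok y hy)
  · exact nbeq_iff.1 (allB_iff.1 chkD6_32_ok y hy)
  · exact nbeq_iff.1 (allB_iff.1 chkD6_33_ok y hy)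
  · exact nbeq_iff.1 (allB_iff.1 chkD6_34_ok y hy)
  · exact nbeq_iff.1 (allB_iff.1 chkD6_35_ok y hy)

theorem compatD_7 (x y : Nat) (hx : x < 36) (hy : y < 960) :
    kD (opX 7 x) (opY 7 y) = opZ 7 (kD x y) := by
  interval_cases x
  · exact nbeq_iff.1 (allB_iff.1 chkD7_0_ok y hy)
  · exact nbeq_iff.1 (allB_iff.1 chkD7_1_ok y hy)
  · exact nbeq_iff.1 (allB_iff.1 chkD7_2_ok y hy)
  · exact nbeq_iff.1 (allB_iff.1 chkD7_3_ok y hy)
  · exact nbeq_iff.1 (allB_iff.1 chkD7_4_ok y hy)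
  · exact nbeq_iff.1 (allB_iff.1 chkD7_5_ok y hy)
  · exact nbeq_iff.1 (allB_iff.1 chkD7_6_ok y hy)
  · exact nbeq_iff.1 (allB_iff.1 chkD7_7_ok y hy)
  · exact nbeq_iff.1 (allB_iff.1 chkD7_8_ok y hy)
  · exact nbeq_iff.1 (allB_iff.1 chkD7_9_ok y hy)
  · exact nbeq_iff.1 (allB_iff.1 chkD7_10_ok y hy)
  · exact nbeq_iff.1 (allB_iff.1 chkD7_11_ok y hy)
  · exact nbeq_iff.1 (allB_iff.1 chkD7_12_ok y hy)
  · exact nbeq_iff.1 (allB_iff.1 chkD7_13_ok y hy)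
  · exact nbeq_iff.1 (allB_iff.1 chkD7_14_ok y hy)
  · exact nbeq_iff.1 (allB_iff.1 chkD7_15_ok y hy)
  · exact nbeq_iff.1 (allB_iff.1 chkD7_16_ok y hy)
  · exact nbeq_iff.1 (allB_iff.1 chkD7_17_ok y hy)
  · exact nbeq_iff.1 (allB_iff.1 chkD7_18_ok y hy)
  · exact nbeq_iff.1 (allB_iff.1 chkD7_19_ok y hy)
  · exact nbeq_iff.1 (allB_iff.1 chkD7_20_ok y hy)
  · exact nbeq_iff.1 (allB_iff.1 chkD7_21_ok y hy)
  · exact nbeq_iff.1 (allB_iff.1 chkD7_22_ok y hy)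
  · exact nbeq_iff.1 (allB_iff.1 chkD7_23_ok y hy)
  · exact nbeq_iff.1 (allB_iff.1 chkD7_24_ok y hy)
  · exact nbeq_iff.1 (allB_iff.1 chkD7_25_ok y hy)
  · exact nbeq_iff.1 (allB_iff.1 chkD7_26_ok y hy)
  · exact nbeq_iff.1 (allB_iff.1 chkD7_27_ok y hy)
  · exact nbeq_iff.1 (allB_iff.1 chkD7_28_ok y hy)
  · exact nbeq_iff.1 (allB_iff.1 chkD7_29_ok y hy)
  · exact nbeq_iff.1 (allB_iff.1 chkD7_30_ok y hy)
  · exact nbeq_iff.1 (allB_iff.1 chkD7_31_ok y hy)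
  · exact nbeq_iff.1 (allB_iff.1 chkD7_32_ok y hy)
  · exact nbeq_iff.1 (allB_iff.1 chkD7_33_ok y hy)
  · exact nbeq_iff.1 (allB_iff.1 chkD7_34_ok y hy)
  · exact nbeq_iff.1 (allB_iff.1 chkD7_35_ok y hy)

theorem compatD_8 (x y : Nat) (hx : x < 36) (hy : y < 960) :
    kD (opX 8 x) (opY 8 y) = opZ 8 (kD x y) := by
  interval_cases x
  · exact nbeq_iff.1 (allB_iff.1 chkD8_0_ok y hy)
  · exact nbeq_iff.1 (allB_iff.1 chkD8_1_ok y hy)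
  · exact nbeq_iff.1 (allB_iff.1 chkD8_2_ok y hy)
  · exact nbeq_iff.1 (allB_iff.1 chkD8_3_ok y hy)
  · exact nbeq_iff.1 (allB_iff.1 chkD8_4_ok y hy)
  · exact nbeq_iff.1 (allB_iff.1 chkD8_5_ok y hy)
  · exact nbeq_iff.1 (allB_iff.1 chkD8_6_ok y hy)
  · exact nbeq_iff.1 (allB_iff.1 chkD8_7_ok y hy)
  · exact nbeq_iff.1 (allB_iff.1 chkD8_8_ok y hy)
  · exact nbeq_iff.1 (allB_iff.1 chkD8_9_ok y hy)
  · exact nbeq_iff.1 (allB_iff.1 chkD8_10_ok y hy)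
  · exact nbeq_iff.1 (allB_iff.1 chkD8_11_ok y hy)
  · exact nbeq_iff.1 (allB_iff.1 chkD8_12_ok y hy)
  · exact nbeq_iff.1 (allB_iff.1 chkD8_13_ok y hy)
  · exact nbeq_iff.1 (allB_iff.1 chkD8_14_ok y hy)
  · exact nbeq_iff.1 (allB_iff.1 chkD8_15_ok y hy)
  · exact nbeq_iff.1 (allB_iff.1 chkD8_16_ok y hy)
  · exact nbeq_iff.1 (allB_iff.1 chkD8_17_ok y hy)
  · exact nbeq_iff.1 (allB_iff.1 chkD8_18_ok y hy)
  · exact nbeq_iff.1 (allB_iff.1 chkD8_19_ok y hy)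
  · exact nbeq_iff.1 (allB_iff.1 chkD8_20_ok y hy)
  · exact nbeq_iff.1 (allB_iff.1 chkD8_21_ok y hy)
  · exact nbeq_iff.1 (allB_iff.1 chkD8_22_ok y hy)
  · exact nbeq_iff.1 (allB_iff.1 chkD8_23_ok y hy)
  · exact nbeq_iff.1 (allB_iff.1 chkD8_24_ok y hy)
  · exact nbeq_iff.1 (allB_iff.1 chkD8_25_ok y hy)
  · exact nbeq_iff.1 (allB_iff.1 chkD8_26_ok y hy)
  · exact nbeq_iff.1 (allB_iff.1 chkD8_27_ok y hy)
  · exact nbeq_iff.1 (allB_iff.1 chkD8_28_ok y hy)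
  · exact nbeq_iff.1 (allB_iff.1 chkD8_29_ok y hy)
  · exact nbeq_iff.1 (allB_iff.1 chkD8_30_ok y hy)
  · exact nbeq_iff.1 (allB_iff.1 chkD8_31_ok y hy)
  · exact nbeq_iff.1 (allB_iff.1 chkD8_32_ok y hy)
  · exact nbeq_iff.1 (allB_iff.1 chkD8_33_ok y hy)
  · exact nbeq_iff.1 (allB_iff.1 chkD8_34_ok y hy)
  · exact nbeq_iff.1 (allB_iff.1 chkD8_35_ok y hy)

theorem compatD_9 (x y : Nat) (hx : x < 36) (hy : y < 960) :
    kD (opX 9 x) (opY 9 y) = opZ 9 (kD x y) := by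
  interval_cases x
  · exact nbeq_iff.1 (allB_iff.1 chkD9_0_ok y hy)
  · exact nbeq_iff.1 (allB_iff.1 chkD9_1_ok y hy)
  · exact nbeq_iff.1 (allB_iff.1 chkD9_2_ok y hy)
  · exact nbeq_iff.1 (allB_iff.1 chkD9_3_ok y hy)
  · exact nbeq_iff.1 (allB_iff.1 chkD9_4_ok y hy)
  · exact nbeq_iff.1 (allB_iff.1 chkD9_5_ok y hy)
  · exact nbeq_iff.1 (allB_iff.1 chkD9_6_ok y hy)
  · exact nbeq_iff.1 (allB_iff.1 chkD9_7_ok y hy)
  · exact nbeq_iff.1 (allB_iff.1 chkD9_8_ok y hy)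
  · exact nbeq_iff.1 (allB_iff.1 chkD9_9_ok y hy)
  · exact nbeq_iff.1 (allB_iff.1 chkD9_10_ok y hy)
  · exact nbeq_iff.1 (allB_iff.1 chkD9_11_ok y hy)
  · exact nbeq_iff.1 (allB_iff.1 chkD9_12_ok y hy)
  · exact nbeq_iff.1 (allB_iff.1 chkD9_13_ok y hy)
  · exact nbeq_iff.1 (allB_iff.1 chkD9_14_ok y hy)
  · exact nbeq_iff.1 (allB_iff.1 chkD9_15_ok y hy)
  · exact nbeq_iff.1 (allB_iff.1 chkD9_16_ok y hy)
  · exact nbeq_iff.1 (allB_iff.1 chkD9_17_ok y hy)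
  · exact nbeq_iff.1 (allB_iff.1 chkD9_18_ok y hy)
  · exact nbeq_iff.1 (allB_iff.1 chkD9_19_ok y hy)
  · exact nbeq_iff.1 (allB_iff.1 chkD9_20_ok y hy)
  · exact nbeq_iff.1 (allB_iff.1 chkD9_21_ok y hy)
  · exact nbeq_iff.1 (allB_iff.1 chkD9_22_ok y hy)
  · exact nbeq_iff.1 (allB_iff.1 chkD9_23_ok y hy)
  · exact nbeq_iff.1 (allB_iff.1 chkD9_24_ok y hy)
  · exact nbeq_iff.1 (allB_iff.1 chkD9_25_ok y hy)
  · exact nbeq_iff.1 (allB_iff.1 chkD9_26_ok y hy)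
  · exact nbeq_iff.1 (allB_iff.1 chkD9_27_ok y hy)
  · exact nbeq_iff.1 (allB_iff.1 chkD9_28_ok y hy)
  · exact nbeq_iff.1 (allB_iff.1 chkD9_29_ok y hy)
  · exact nbeq_iff.1 (allB_iff.1 chkD9_30_ok y hy)
  · exact nbeq_iff.1 (allB_iff.1 chkD9_31_ok y hy)
  · exact nbeq_iff.1 (allB_iff.1 chkD9_32_ok y hy)
  · exact nbeq_iff.1 (allB_iff.1 chkD9_33_ok y hy)
  · exact nbeq_iff.1 (allB_iff.1 chkD9_34_ok y hy)
  · exact nbeq_iff.1 (allB_iff.1 chkD9_35_ok y hy)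

theorem compatD (i x y : Nat) (hi : i < 10) (hx : x < 36) (hy : y < 960) :
    kD (opX i x) (opY i y) = opZ i (kD x y) := by
  interval_cases i
  · exact compatD_0 x y hx hy
  · exact compatD_1 x y hx hy
  · exact compatD_2 x y hx hy
  · exact compatD_3 x y hx hy
  · exact compatD_4 x y hx hy
  · exact compatD_5 x y hx hy
  · exact compatD_6 x y hx hy
  · exact compatD_7 x y hx hy
  · exact compatD_8 x y hx hy
  · exact compatD_9 x y hx hy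

theorem compatA_0 (x y : Nat) (hx : x < 36) (hy : y < 960) :
    kA (opX 0 x) (opY 0 y) = opW 0 x (kA x y) := by
  interval_cases x
  · exact nbeq_iff.1 (allB_iff.1 chkA0_0_ok y hy)
  · exact nbeq_iff.1 (allB_iff.1 chkA0_1_ok y hy)
  · exact nbeq_iff.1 (allB_iff.1 chkA0_2_ok y hy)
  · exact nbeq_iff.1 (allB_iff.1 chkA0_3_ok y hy)
  · exact nbeq_iff.1 (allB_iff.1 chkA0_4_ok y hy)
  · exact nbeq_iff.1 (allB_iff.1 chkA0_5_ok y hy)
  · exact nbeq_iff.1 (allB_iff.1 chkA0_6_ok y hy)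
  · exact nbeq_iff.1 (allB_iff.1 chkA0_7_ok y hy)
  · exact nbeq_iff.1 (allB_iff.1 chkA0_8_ok y hy)
  · exact nbeq_iff.1 (allB_iff.1 chkA0_9_ok y hy)
  · exact nbeq_iff.1 (allB_iff.1 chkA0_10_ok y hy)
  · exact nbeq_iff.1 (allB_iff.1 chkA0_11_ok y hy)
  · exact nbeq_iff.1 (allB_iff.1 chkA0_12_ok y hy)
  · exact nbeq_iff.1 (allB_iff.1 chkA0_13_ok y hy)
  · exact nbeq_iff.1 (allB_iff.1 chkA0_14_ok y hy)
  · exact nbeq_iff.1 (allB_iff.1 chkA0_15_ok y hy)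
  · exact nbeq_iff.1 (allB_iff.1 chkA0_16_ok y hy)
  · exact nbeq_iff.1 (allB_iff.1 chkA0_17_ok y hy)
  · exact nbeq_iff.1 (allB_iff.1 chkA0_18_ok y hy)
  · exact nbeq_iff.1 (allB_iff.1 chkA0_19_ok y hy)
  · exact nbeq_iff.1 (allB_iff.1 chkA0_20_ok y hy)
  · exact nbeq_iff.1 (allB_iff.1 chkA0_21_ok y hy)
  · exact nbeq_iff.1 (allB_iff.1 chkA0_22_ok y hy)
  · exact nbeq_iff.1 (allB_iff.1 chkA0_23_ok y hy)
  · exact nbeq_iff.1 (allB_iff.1 chkA0_24_ok y hy)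
  · exact nbeq_iff.1 (allB_iff.1 chkA0_25_ok y hy)
  · exact nbeq_iff.1 (allB_iff.1 chkA0_26_ok y hy)
  · exact nbeq_iff.1 (allB_iff.1 chkA0_27_ok y hy)
  · exact nbeq_iff.1 (allB_iff.1 chkA0_28_ok y hy)
  · exact nbeq_iff.1 (allB_iff.1 chkA0_29_ok y hy)
  · exact nbeq_iff.1 (allB_iff.1 chkA0_30_ok y hy)
  · exact nbeq_iff.1 (allB_iff.1 chkA0_31_ok y hy)
  · exact nbeq_iff.1 (allB_iff.1 chkA0_32_ok y hy)
  · exact nbeq_iff.1 (allB_iff.1 chkA0_33_ok y hy)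
  · exact nbeq_iff.1 (allB_iff.1 chkA0_34_ok y hy)
  · exact nbeq_iff.1 (allB_iff.1 chkA0_35_ok y hy)

theorem compatA_1 (x y : Nat) (hx : x < 36) (hy : y < 960) :
    kA (opX 1 x) (opY 1 y) = opW 1 x (kA x y) := by
  interval_cases x
  · exact nbeq_iff.1 (allB_iff.1 chkA1_0_ok y hy)
  · exact nbeq_iff.1 (allB_iff.1 chkA1_1_ok y hy)
  · exact nbeq_iff.1 (allB_iff.1 chkA1_2_ok y hy)
  · exact nbeq_iff.1 (allB_iff.1 chkA1_3_ok y hy)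
  · exact nbeq_iff.1 (allB_iff.1 chkA1_4_ok y hy)
  · exact nbeq_iff.1 (allB_iff.1 chkA1_5_ok y hy)
  · exact nbeq_iff.1 (allB_iff.1 chkA1_6_ok y hy)
  · exact nbeq_iff.1 (allB_iff.1 chkA1_7_ok y hy)
  · exact nbeq_iff.1 (allB_iff.1 chkA1_8_ok y hy)
  · exact nbeq_iff.1 (allB_iff.1 chkA1_9_ok y hy)
  · exact nbeq_iff.1 (allB_iff.1 chkA1_10_ok y hy)
  · exact nbeq_iff.1 (allB_iff.1 chkA1_11_ok y hy)
  · exact nbeq_iff.1 (allB_iff.1 chkA1_12_ok y hy)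
  · exact nbeq_iff.1 (allB_iff.1 chkA1_13_ok y hy)
  · exact nbeq_iff.1 (allB_iff.1 chkA1_14_ok y hy)
  · exact nbeq_iff.1 (allB_iff.1 chkA1_15_ok y hy)
  · exact nbeq_iff.1 (allB_iff.1 chkA1_16_ok y hy)
  · exact nbeq_iff.1 (allB_iff.1 chkA1_17_ok y hy)
  · exact nbeq_iff.1 (allB_iff.1 chkA1_18_ok y hy)
  · exact nbeq_iff.1 (allB_iff.1 chkA1_19_ok y hy)
  · exact nbeq_iff.1 (allB_iff.1 chkA1_20_ok y hy)
  · exact nbeq_iff.1 (allB_iff.1 chkA1_21_ok y hy)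
  · exact nbeq_iff.1 (allB_iff.1 chkA1_22_ok y hy)
  · exact nbeq_iff.1 (allB_iff.1 chkA1_23_ok y hy)
  · exact nbeq_iff.1 (allB_iff.1 chkA1_24_ok y hy)
  · exact nbeq_iff.1 (allB_iff.1 chkA1_25_ok y hy)
  · exact nbeq_iff.1 (allB_iff.1 chkA1_26_ok y hy)
  · exact nbeq_iff.1 (allB_iff.1 chkA1_27_ok y hy)
  · exact nbeq_iff.1 (allB_iff.1 chkA1_28_ok y hy)
  · exact nbeq_iff.1 (allB_iff.1 chkA1_29_ok y hy)
  · exact nbeq_iff.1 (allB_iff.1 chkA1_30_ok y hy)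
  · exact nbeq_iff.1 (allB_iff.1 chkA1_31_ok y hy)
  · exact nbeq_iff.1 (allB_iff.1 chkA1_32_ok y hy)
  · exact nbeq_iff.1 (allB_iff.1 chkA1_33_ok y hy)
  · exact nbeq_iff.1 (allB_iff.1 chkA1_34_ok y hy)
  · exact nbeq_iff.1 (allB_iff.1 chkA1_35_ok y hy)

theorem compatA_2 (x y : Nat) (hx : x < 36) (hy : y < 960) :
    kA (opX 2 x) (opY 2 y) = opW 2 x (kA x y) := by
  interval_cases x
  · exact nbeq_iff.1 (allB_iff.1 chkA2_0_ok y hy)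
  · exact nbeq_iff.1 (allB_iff.1 chkA2_1_ok y hy)
  · exact nbeq_iff.1 (allB_iff.1 chkA2_2_ok y hy)
  · exact nbeq_iff.1 (allB_iff.1 chkA2_3_ok y hy)
  · exact nbeq_iff.1 (allB_iff.1 chkA2_4_ok y hy)
  · exact nbeq_iff.1 (allB_iff.1 chkA2_5_ok y hy)
  · exact nbeq_iff.1 (allB_iff.1 chkA2_6_ok y hy)
  · exact nbeq_iff.1 (allB_iff.1 chkA2_7_ok y hy)
  · exact nbeq_iff.1 (allB_iff.1 chkA2_8_ok y hy)
  · exact nbeq_iff.1 (allB_iff.1 chkA2_9_ok y hy)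
  · exact nbeq_iff.1 (allB_iff.1 chkA2_10_ok y hy)
  · exact nbeq_iff.1 (allB_iff.1 chkA2_11_ok y hy)
  · exact nbeq_iff.1 (allB_iff.1 chkA2_12_ok y hy)
  · exact nbeq_iff.1 (allB_iff.1 chkA2_13_ok y hy)
  · exact nbeq_iff.1 (allB_iff.1 chkA2_14_ok y hy)
  · exact nbeq_iff.1 (allB_iff.1 chkA2_15_ok y hy)
  · exact nbeq_iff.1 (allB_iff.1 chkA2_16_ok y hy)
  · exact nbeq_iff.1 (allB_iff.1 chkA2_17_ok y hy)
  · exact nbeq_iff.1 (allB_iff.1 chkA2_18_ok y hy)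
  · exact nbeq_iff.1 (allB_iff.1 chkA2_19_ok y hy)
  · exact nbeq_iff.1 (allB_iff.1 chkA2_20_ok y hy)
  · exact nbeq_iff.1 (allB_iff.1 chkA2_21_ok y hy)
  · exact nbeq_iff.1 (allB_iff.1 chkA2_22_ok y hy)
  · exact nbeq_iff.1 (allB_iff.1 chkA2_23_ok y hy)
  · exact nbeq_iff.1 (allB_iff.1 chkA2_24_ok y hy)
  · exact nbeq_iff.1 (allB_iff.1 chkA2_25_ok y hy)
  · exact nbeq_iff.1 (allB_iff.1 chkA2_26_ok y hy)
  · exact nbeq_iff.1 (allB_iff.1 chkA2_27_ok y hy)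
  · exact nbeq_iff.1 (allB_iff.1 chkA2_28_ok y hy)
  · exact nbeq_iff.1 (allB_iff.1 chkA2_29_ok y hy)
  · exact nbeq_iff.1 (allB_iff.1 chkA2_30_ok y hy)
  · exact nbeq_iff.1 (allB_iff.1 chkA2_31_ok y hy)
  · exact nbeq_iff.1 (allB_iff.1 chkA2_32_ok y hy)
  · exact nbeq_iff.1 (allB_iff.1 chkA2_33_ok y hy)
  · exact nbeq_iff.1 (allB_iff.1 chkA2_34_ok y hy)
  · exact nbeq_iff.1 (allB_iff.1 chkA2_35_ok y hy)

theorem compatA_3 (x y : Nat) (hx : x < 36) (hy : y < 960) :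
    kA (opX 3 x) (opY 3 y) = opW 3 x (kA x y) := by
  interval_cases x
  · exact nbeq_iff.1 (allB_iff.1 chkA3_0_ok y hy)
  · exact nbeq_iff.1 (allB_iff.1 chkA3_1_ok y hy)
  · exact nbeq_iff.1 (allB_iff.1 chkA3_2_ok y hy)
  · exact nbeq_iff.1 (allB_iff.1 chkA3_3_ok y hy)
  · exact nbeq_iff.1 (allB_iff.1 chkA3_4_ok y hy)
  · exact nbeq_iff.1 (allB_iff.1 chkA3_5_ok y hy)
  · exact nbeq_iff.1 (allB_iff.1 chkA3_6_ok y hy)
  · exact nbeq_iff.1 (allB_iff.1 chkA3_7_ok y hy)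
  · exact nbeq_iff.1 (allB_iff.1 chkA3_8_ok y hy)
  · exact nbeq_iff.1 (allB_iff.1 chkA3_9_ok y hy)
  · exact nbeq_iff.1 (allB_iff.1 chkA3_10_ok y hy)
  · exact nbeq_iff.1 (allB_iff.1 chkA3_11_ok y hy)
  · exact nbeq_iff.1 (allB_iff.1 chkA3_12_ok y hy)
  · exact nbeq_iff.1 (allB_iff.1 chkA3_13_ok y hy)
  · exact nbeq_iff.1 (allB_iff.1 chkA3_14_ok y hy)
  · exact nbeq_iff.1 (allB_iff.1 chkA3_15_ok y hy)
  · exact nbeq_iff.1 (allB_iff.1 chkA3_16_ok y hy)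
  · exact nbeq_iff.1 (allB_iff.1 chkA3_17_ok y hy)
  · exact nbeq_iff.1 (allB_iff.1 chkA3_18_ok y hy)
  · exact nbeq_iff.1 (allB_iff.1 chkA3_19_ok y hy)
  · exact nbeq_iff.1 (allB_iff.1 chkA3_20_ok y hy)
  · exact nbeq_iff.1 (allB_iff.1 chkA3_21_ok y hy)
  · exact nbeq_iff.1 (allB_iff.1 chkA3_22_ok y hy)
  · exact nbeq_iff.1 (allB_iff.1 chkA3_23_ok y hy)
  · exact nbeq_iff.1 (allB_iff.1 chkA3_24_ok y hy)
  · exact nbeq_iff.1 (allB_iff.1 chkA3_25_ok y hy)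
  · exact nbeq_iff.1 (allB_iff.1 chkA3_26_ok y hy)
  · exact nbeq_iff.1 (allB_iff.1 chkA3_27_ok y hy)
  · exact nbeq_iff.1 (allB_iff.1 chkA3_28_ok y hy)
  · exact nbeq_iff.1 (allB_iff.1 chkA3_29_ok y hy)
  · exact nbeq_iff.1 (allB_iff.1 chkA3_30_ok y hy)
  · exact nbeq_iff.1 (allB_iff.1 chkA3_31_ok y hy)
  · exact nbeq_iff.1 (allB_iff.1 chkA3_32_ok y hy)
  · exact nbeq_iff.1 (allB_iff.1 chkA3_33_ok y hy)
  · exact nbeq_iff.1 (allB_iff.1 chkA3_34_ok y hy)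
  · exact nbeq_iff.1 (allB_iff.1 chkA3_35_ok y hy)

theorem compatA_4 (x y : Nat) (hx : x < 36) (hy : y < 960) :
    kA (opX 4 x) (opY 4 y) = opW 4 x (kA x y) := by
  interval_cases x
  · exact nbeq_iff.1 (allB_iff.1 chkA4_0_ok y hy)
  · exact nbeq_iff.1 (allB_iff.1 chkA4_1_ok y hy)
  · exact nbeq_iff.1 (allB_iff.1 chkA4_2_ok y hy)
  · exact nbeq_iff.1 (allB_iff.1 chkA4_3_ok y hy)
  · exact nbeq_iff.1 (allB_iff.1 chkA4_4_ok y hy)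
  · exact nbeq_iff.1 (allB_iff.1 chkA4_5_ok y hy)
  · exact nbeq_iff.1 (allB_iff.1 chkA4_6_ok y hy)
  · exact nbeq_iff.1 (allB_iff.1 chkA4_7_ok y hy)
  · exact nbeq_iff.1 (allB_iff.1 chkA4_8_ok y hy)
  · exact nbeq_iff.1 (allB_iff.1 chkA4_9_ok y hy)
  · exact nbeq_iff.1 (allB_iff.1 chkA4_10_ok y hy)
  · exact nbeq_iff.1 (allB_iff.1 chkA4_11_ok y hy)
  · exact nbeq_iff.1 (allB_iff.1 chkA4_12_ok y hy)
  · exact nbeq_iff.1 (allB_iff.1 chkA4_13_ok y hy)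
  · exact nbeq_iff.1 (allB_iff.1 chkA4_14_ok y hy)
  · exact nbeq_iff.1 (allB_iff.1 chkA4_15_ok y hy)
  · exact nbeq_iff.1 (allB_iff.1 chkA4_16_ok y hy)
  · exact nbeq_iff.1 (allB_iff.1 chkA4_17_ok y hy)
  · exact nbeq_iff.1 (allB_iff.1 chkA4_18_ok y hy)
  · exact nbeq_iff.1 (allB_iff.1 chkA4_19_ok y hy)
  · exact nbeq_iff.1 (allB_iff.1 chkA4_20_ok y hy)
  · exact nbeq_iff.1 (allB_iff.1 chkA4_21_ok y hy)
  · exact nbeq_iff.1 (allB_iff.1 chkA4_22_ok y hy)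
  · exact nbeq_iff.1 (allB_iff.1 chkA4_23_ok y hy)
  · exact nbeq_iff.1 (allB_iff.1 chkA4_24_ok y hy)
  · exact nbeq_iff.1 (allB_iff.1 chkA4_25_ok y hy)
  · exact nbeq_iff.1 (allB_iff.1 chkA4_26_ok y hy)
  · exact nbeq_iff.1 (allB_iff.1 chkA4_27_ok y hy)
  · exact nbeq_iff.1 (allB_iff.1 chkA4_28_ok y hy)
  · exact nbeq_iff.1 (allB_iff.1 chkA4_29_ok y hy)
  · exact nbeq_iff.1 (allB_iff.1 chkA4_30_ok y hy)
  · exact nbeq_iff.1 (allB_iff.1 chkA4_31_ok y hy)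
  · exact nbeq_iff.1 (allB_iff.1 chkA4_32_ok y hy)
  · exact nbeq_iff.1 (allB_iff.1 chkA4_33_ok y hy)
  · exact nbeq_iff.1 (allB_iff.1 chkA4_34_ok y hy)
  · exact nbeq_iff.1 (allB_iff.1 chkA4_35_ok y hy)

theorem compatA_5 (x y : Nat) (hx : x < 36) (hy : y < 960) :
    kA (opX 5 x) (opY 5 y) = opW 5 x (kA x y) := by
  interval_cases x
  · exact nbeq_iff.1 (allB_iff.1 chkA5_0_ok y hy)
  · exact nbeq_iff.1 (allB_iff.1 chkA5_1_ok y hy)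
  · exact nbeq_iff.1 (allB_iff.1 chkA5_2_ok y hy)
  · exact nbeq_iff.1 (allB_iff.1 chkA5_3_ok y hy)
  · exact nbeq_iff.1 (allB_iff.1 chkA5_4_ok y hy)
  · exact nbeq_iff.1 (allB_iff.1 chkA5_5_ok y hy)
  · exact nbeq_iff.1 (allB_iff.1 chkA5_6_ok y hy)
  · exact nbeq_iff.1 (allB_iff.1 chkA5_7_ok y hy)
  · exact nbeq_iff.1 (allB_iff.1 chkA5_8_ok y hy)
  · exact nbeq_iff.1 (allB_iff.1 chkA5_9_ok y hy)
  · exact nbeq_iff.1 (allB_iff.1 chkA5_10_ok y hy)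
  · exact nbeq_iff.1 (allB_iff.1 chkA5_11_ok y hy)
  · exact nbeq_iff.1 (allB_iff.1 chkA5_12_ok y hy)
  · exact nbeq_iff.1 (allB_iff.1 chkA5_13_ok y hy)
  · exact nbeq_iff.1 (allB_iff.1 chkA5_14_ok y hy)
  · exact nbeq_iff.1 (allB_iff.1 chkA5_15_ok y hy)
  · exact nbeq_iff.1 (allB_iff.1 chkA5_16_ok y hy)
  · exact nbeq_iff.1 (allB_iff.1 chkA5_17_ok y hy)
  · exact nbeq_iff.1 (allB_iff.1 chkA5_18_ok y hy)
  · exact nbeq_iff.1 (allB_iff.1 chkA5_19_ok y hy)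
  · exact nbeq_iff.1 (allB_iff.1 chkA5_20_ok y hy)
  · exact nbeq_iff.1 (allB_iff.1 chkA5_21_ok y hy)
  · exact nbeq_iff.1 (allB_iff.1 chkA5_22_ok y hy)
  · exact nbeq_iff.1 (allB_iff.1 chkA5_23_ok y hy)
  · exact nbeq_iff.1 (allB_iff.1 chkA5_24_ok y hy)
  · exact nbeq_iff.1 (allB_iff.1 chkA5_25_ok y hy)
  · exact nbeq_iff.1 (allB_iff.1 chkA5_26_ok y hy)
  · exact nbeq_iff.1 (allB_iff.1 chkA5_27_ok y hy)
  · exact nbeq_iff.1 (allB_iff.1 chkA5_28_ok y hy)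
  · exact nbeq_iff.1 (allB_iff.1 chkA5_29_ok y hy)
  · exact nbeq_iff.1 (allB_iff.1 chkA5_30_ok y hy)
  · exact nbeq_iff.1 (allB_iff.1 chkA5_31_ok y hy)
  · exact nbeq_iff.1 (allB_iff.1 chkA5_32_ok y hy)
  · exact nbeq_iff.1 (allB_iff.1 chkA5_33_ok y hy)
  · exact nbeq_iff.1 (allB_iff.1 chkA5_34_ok y hy)
  · exact nbeq_iff.1 (allB_iff.1 chkA5_35_ok y hy)

theorem compatA_6 (x y : Nat) (hx : x < 36) (hy : y < 960) :
    kA (opX 6 x) (opY 6 y) = opW 6 x (kA x y) := by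
  interval_cases x
  · exact nbeq_iff.1 (allB_iff.1 chkA6_0_ok y hy)
  · exact nbeq_iff.1 (allB_iff.1 chkA6_1_ok y hy)
  · exact nbeq_iff.1 (allB_iff.1 chkA6_2_ok y hy)
  · exact nbeq_iff.1 (allB_iff.1 chkA6_3_ok y hy)
  · exact nbeq_iff.1 (allB_iff.1 chkA6_4_ok y hy)
  · exact nbeq_iff.1 (allB_iff.1 chkA6_5_ok y hy)
  · exact nbeq_iff.1 (allB_iff.1 chkA6_6_ok y hy)
  · exact nbeq_iff.1 (allB_iff.1 chkA6_7_ok y hy)
  · exact nbeq_iff.1 (allB_iff.1 chkA6_8_ok y hy)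
  · exact nbeq_iff.1 (allB_iff.1 chkA6_9_ok y hy)
  · exact nbeq_iff.1 (allB_iff.1 chkA6_10_ok y hy)
  · exact nbeq_iff.1 (allB_iff.1 chkA6_11_ok y hy)
  · exact nbeq_iff.1 (allB_iff.1 chkA6_12_ok y hy)
  · exact nbeq_iff.1 (allB_iff.1 chkA6_13_ok y hy)
  · exact nbeq_iff.1 (allB_iff.1 chkA6_14_ok y hy)
  · exact nbeq_iff.1 (allB_iff.1 chkA6_15_ok y hy)
  · exact nbeq_iff.1 (allB_iff.1 chkA6_16_ok y hy)
  · exact nbeq_iff.1 (allB_iff.1 chkA6_17_ok y hy)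
  · exact nbeq_iff.1 (allB_iff.1 chkA6_18_ok y hy)
  · exact nbeq_iff.1 (allB_iff.1 chkA6_19_ok y hy)
  · exact nbeq_iff.1 (allB_iff.1 chkA6_20_ok y hy)
  · exact nbeq_iff.1 (allB_iff.1 chkA6_21_ok y hy)
  · exact nbeq_iff.1 (allB_iff.1 chkA6_22_ok y hy)
  · exact nbeq_iff.1 (allB_iff.1 chkA6_23_ok y hy)
  · exact nbeq_iff.1 (allB_iff.1 chkA6_24_ok y hy)
  · exact nbeq_iff.1 (allB_iff.1 chkA6_25_ok y hy)
  · exact nbeq_iff.1 (allB_iff.1 chkA6_26_ok y hy)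
  · exact nbeq_iff.1 (allB_iff.1 chkA6_27_ok y hy)
  · exact nbeq_iff.1 (allB_iff.1 chkA6_28_ok y hy)
  · exact nbeq_iff.1 (allB_iff.1 chkA6_29_ok y hy)
  · exact nbeq_iff.1 (allB_iff.1 chkA6_30_ok y hy)
  · exact nbeq_iff.1 (allB_iff.1 chkA6_31_ok y hy)
  · exact nbeq_iff.1 (allB_iff.1 chkA6_32_ok y hy)
  · exact nbeq_iff.1 (allB_iff.1 chkA6_33_ok y hy)
  · exact nbeq_iff.1 (allB_iff.1 chkA6_34_ok y hy)
  · exact nbeq_iff.1 (allB_iff.1 chkA6_35_ok y hy)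

theorem compatA_7 (x y : Nat) (hx : x < 36) (hy : y < 960) :
    kA (opX 7 x) (opY 7 y) = opW 7 x (kA x y) := by
  interval_cases x
  · exact nbeq_iff.1 (allB_iff.1 chkA7_0_ok y hy)
  · exact nbeq_iff.1 (allB_iff.1 chkA7_1_ok y hy)
  · exact nbeq_iff.1 (allB_iff.1 chkA7_2_ok y hy)
  · exact nbeq_iff.1 (allB_iff.1 chkA7_3_ok y hy)
  · exact nbeq_iff.1 (allB_iff.1 chkA7_4_ok y hy)
  · exact nbeq_iff.1 (allB_iff.1 chkA7_5_ok y hy)
  · exact nbeq_iff.1 (allB_iff.1 chkA7_6_ok y hy)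
  · exact nbeq_iff.1 (allB_iff.1 chkA7_7_ok y hy)
  · exact nbeq_iff.1 (allB_iff.1 chkA7_8_ok y hy)
  · exact nbeq_iff.1 (allB_iff.1 chkA7_9_ok y hy)
  · exact nbeq_iff.1 (allB_iff.1 chkA7_10_ok y hy)
  · exact nbeq_iff.1 (allB_iff.1 chkA7_11_ok y hy)
  · exact nbeq_iff.1 (allB_iff.1 chkA7_12_ok y hy)
  · exact nbeq_iff.1 (allB_iff.1 chkA7_13_ok y hy)
  · exact nbeq_iff.1 (allB_iff.1 chkA7_14_ok y hy)
  · exact nbeq_iff.1 (allB_iff.1 chkA7_15_ok y hy)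
  · exact nbeq_iff.1 (allB_iff.1 chkA7_16_ok y hy)
  · exact nbeq_iff.1 (allB_iff.1 chkA7_17_ok y hy)
  · exact nbeq_iff.1 (allB_iff.1 chkA7_18_ok y hy)
  · exact nbeq_iff.1 (allB_iff.1 chkA7_19_ok y hy)
  · exact nbeq_iff.1 (allB_iff.1 chkA7_20_ok y hy)
  · exact nbeq_iff.1 (allB_iff.1 chkA7_21_ok y hy)
  · exact nbeq_iff.1 (allB_iff.1 chkA7_22_ok y hy)
  · exact nbeq_iff.1 (allB_iff.1 chkA7_23_ok y hy)
  · exact nbeq_iff.1 (allB_iff.1 chkA7_24_ok y hy)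
  · exact nbeq_iff.1 (allB_iff.1 chkA7_25_ok y hy)
  · exact nbeq_iff.1 (allB_iff.1 chkA7_26_ok y hy)
  · exact nbeq_iff.1 (allB_iff.1 chkA7_27_ok y hy)
  · exact nbeq_iff.1 (allB_iff.1 chkA7_28_ok y hy)
  · exact nbeq_iff.1 (allB_iff.1 chkA7_29_ok y hy)
  · exact nbeq_iff.1 (allB_iff.1 chkA7_30_ok y hy)
  · exact nbeq_iff.1 (allB_iff.1 chkA7_31_ok y hy)
  · exact nbeq_iff.1 (allB_iff.1 chkA7_32_ok y hy)
  · exact nbeq_iff.1 (allB_iff.1 chkA7_33_ok y hy)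
  · exact nbeq_iff.1 (allB_iff.1 chkA7_34_ok y hy)
  · exact nbeq_iff.1 (allB_iff.1 chkA7_35_ok y hy)

theorem compatA_8 (x y : Nat) (hx : x < 36) (hy : y < 960) :
    kA (opX 8 x) (opY 8 y) = opW 8 x (kA x y) := by
  interval_cases x
  · exact nbeq_iff.1 (allB_iff.1 chkA8_0_ok y hy)
  · exact nbeq_iff.1 (allB_iff.1 chkA8_1_ok y hy)
  · exact nbeq_iff.1 (allB_iff.1 chkA8_2_ok y hy)
  · exact nbeq_iff.1 (allB_iff.1 chkA8_3_ok y hy)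
  · exact nbeq_iff.1 (allB_iff.1 chkA8_4_ok y hy)
  · exact nbeq_iff.1 (allB_iff.1 chkA8_5_ok y hy)
  · exact nbeq_iff.1 (allB_iff.1 chkA8_6_ok y hy)
  · exact nbeq_iff.1 (allB_iff.1 chkA8_7_ok y hy)
  · exact nbeq_iff.1 (allB_iff.1 chkA8_8_ok y hy)
  · exact nbeq_iff.1 (allB_iff.1 chkA8_9_ok y hy)
  · exact nbeq_iff.1 (allB_iff.1 chkA8_10_ok y hy)
  · exact nbeq_iff.1 (allB_iff.1 chkA8_11_ok y hy)
  · exact nbeq_iff.1 (allB_iff.1 chkA8_12_ok y hy)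
  · exact nbeq_iff.1 (allB_iff.1 chkA8_13_ok y hy)
  · exact nbeq_iff.1 (allB_iff.1 chkA8_14_ok y hy)
  · exact nbeq_iff.1 (allB_iff.1 chkA8_15_ok y hy)
  · exact nbeq_iff.1 (allB_iff.1 chkA8_16_ok y hy)
  · exact nbeq_iff.1 (allB_iff.1 chkA8_17_ok y hy)
  · exact nbeq_iff.1 (allB_iff.1 chkA8_18_ok y hy)
  · exact nbeq_iff.1 (allB_iff.1 chkA8_19_ok y hy)
  · exact nbeq_iff.1 (allB_iff.1 chkA8_20_ok y hy)
  · exact nbeq_iff.1 (allB_iff.1 chkA8_21_ok y hy)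
  · exact nbeq_iff.1 (allB_iff.1 chkA8_22_ok y hy)
  · exact nbeq_iff.1 (allB_iff.1 chkA8_23_ok y hy)
  · exact nbeq_iff.1 (allB_iff.1 chkA8_24_ok y hy)
  · exact nbeq_iff.1 (allB_iff.1 chkA8_25_ok y hy)
  · exact nbeq_iff.1 (allB_iff.1 chkA8_26_ok y hy)
  · exact nbeq_iff.1 (allB_iff.1 chkA8_27_ok y hy)
  · exact nbeq_iff.1 (allB_iff.1 chkA8_28_ok y hy)
  · exact nbeq_iff.1 (allB_iff.1 chkA8_29_ok y hy)
  · exact nbeq_iff.1 (allB_iff.1 chkA8_30_ok y hy)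
  · exact nbeq_iff.1 (allB_iff.1 chkA8_31_ok y hy)
  · exact nbeq_iff.1 (allB_iff.1 chkA8_32_ok y hy)
  · exact nbeq_iff.1 (allB_iff.1 chkA8_33_ok y hy)
  · exact nbeq_iff.1 (allB_iff.1 chkA8_34_ok y hy)
  · exact nbeq_iff.1 (allB_iff.1 chkA8_35_ok y hy)

theorem compatA_9 (x y : Nat) (hx : x < 36) (hy : y < 960) :
    kA (opX 9 x) (opY 9 y) = opW 9 x (kA x y) := by
  interval_cases x
  · exact nbeq_iff.1 (allB_iff.1 chkA9_0_ok y hy)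
  · exact nbeq_iff.1 (allB_iff.1 chkA9_1_ok y hy)
  · exact nbeq_iff.1 (allB_iff.1 chkA9_2_ok y hy)
  · exact nbeq_iff.1 (allB_iff.1 chkA9_3_ok y hy)
  · exact nbeq_iff.1 (allB_iff.1 chkA9_4_ok y hy)
  · exact nbeq_iff.1 (allB_iff.1 chkA9_5_ok y hy)
  · exact nbeq_iff.1 (allB_iff.1 chkA9_6_ok y hy)
  · exact nbeq_iff.1 (allB_iff.1 chkA9_7_ok y hy)
  · exact nbeq_iff.1 (allB_iff.1 chkA9_8_ok y hy)
  · exact nbeq_iff.1 (allB_iff.1 chkA9_9_ok y hy)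
  · exact nbeq_iff.1 (allB_iff.1 chkA9_10_ok y hy)
  · exact nbeq_iff.1 (allB_iff.1 chkA9_11_ok y hy)
  · exact nbeq_iff.1 (allB_iff.1 chkA9_12_ok y hy)
  · exact nbeq_iff.1 (allB_iff.1 chkA9_13_ok y hy)
  · exact nbeq_iff.1 (allB_iff.1 chkA9_14_ok y hy)
  · exact nbeq_iff.1 (allB_iff.1 chkA9_15_ok y hy)
  · exact nbeq_iff.1 (allB_iff.1 chkA9_16_ok y hy)
  · exact nbeq_iff.1 (allB_iff.1 chkA9_17_ok y hy)
  · exact nbeq_iff.1 (allB_iff.1 chkA9_18_ok y hy)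
  · exact nbeq_iff.1 (allB_iff.1 chkA9_19_ok y hy)
  · exact nbeq_iff.1 (allB_iff.1 chkA9_20_ok y hy)
  · exact nbeq_iff.1 (allB_iff.1 chkA9_21_ok y hy)
  · exact nbeq_iff.1 (allB_iff.1 chkA9_22_ok y hy)
  · exact nbeq_iff.1 (allB_iff.1 chkA9_23_ok y hy)
  · exact nbeq_iff.1 (allB_iff.1 chkA9_24_ok y hy)
  · exact nbeq_iff.1 (allB_iff.1 chkA9_25_ok y hy)
  · exact nbeq_iff.1 (allB_iff.1 chkA9_26_ok y hy)
  · exact nbeq_iff.1 (allB_iff.1 chkA9_27_ok y hy)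
  · exact nbeq_iff.1 (allB_iff.1 chkA9_28_ok y hy)
  · exact nbeq_iff.1 (allB_iff.1 chkA9_29_ok y hy)
  · exact nbeq_iff.1 (allB_iff.1 chkA9_30_ok y hy)
  · exact nbeq_iff.1 (allB_iff.1 chkA9_31_ok y hy)
  · exact nbeq_iff.1 (allB_iff.1 chkA9_32_ok y hy)
  · exact nbeq_iff.1 (allB_iff.1 chkA9_33_ok y hy)
  · exact nbeq_iff.1 (allB_iff.1 chkA9_34_ok y hy)
  · exact nbeq_iff.1 (allB_iff.1 chkA9_35_ok y hy)

theorem compatA (i x y : Nat) (hi : i < 10) (hx : x < 36) (hy : y < 960) :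
    kA (opX i x) (opY i y) = opW i x (kA x y) := by
  interval_cases i
  · exact compatA_0 x y hx hy
  · exact compatA_1 x y hx hy
  · exact compatA_2 x y hx hy
  · exact compatA_3 x y hx hy
  · exact compatA_4 x y hx hy
  · exact compatA_5 x y hx hy
  · exact compatA_6 x y hx hy
  · exact compatA_7 x y hx hy
  · exact compatA_8 x y hx hy
  · exact compatA_9 x y hx hy

theorem repQ_spec {n c : Nat} (h : chkRepQ n c = true) (k : Nat) (hk : k < n) :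
    chkRep (50 * c + k) = true := allB_iff.1 h k hk

theorem reps_ok (idx : Nat) (h : idx < 847) : chkRep idx = true := by
  obtain ⟨c, k, hc, hk, rfl⟩ : ∃ c k, c < 17 ∧ k < 50 ∧ idx = 50 * c + k :=
    ⟨idx / 50, idx % 50, by omega, by omega, by omega⟩
  interval_cases c
  · exact repQ_spec chkRep0_ok k (by omega)
  · exact repQ_spec chkRep1_ok k (by omega)
  · exact repQ_spec chkRep2_ok k (by omega)
  · exact repQ_spec chkRep3_ok k (by omega)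
  · exact repQ_spec chkRep4_ok k (by omega)
  · exact repQ_spec chkRep5_ok k (by omega)
  · exact repQ_spec chkRep6_ok k (by omega)
  · exact repQ_spec chkRep7_ok k (by omega)
  · exact repQ_spec chkRep8_ok k (by omega)
  · exact repQ_spec chkRep9_ok k (by omega)
  · exact repQ_spec chkRep10_ok k (by omega)
  · exact repQ_spec chkRep11_ok k (by omega)
  · exact repQ_spec chkRep12_ok k (by omega)
  · exact repQ_spec chkRep13_ok k (by omega)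
  · exact repQ_spec chkRep14_ok k (by omega)
  · exact repQ_spec chkRep15_ok k (by omega)
  · exact repQ_spec chkRep16_ok k (by omega)

end Vale.Agent.Lib.P183
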